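import Vale.Agent.P230.Config

/-!
Existence of a convex body whose translates cannot cover a window cheaply.
-/

namespace Vale.Agent.P230

open Finset Real MeasureTheory Metric
open scoped Classical ENNReal

variable {n : ℕ} {x d k : ℝ}

/-- The body: a slightly shrunk ball cut by the selected half-spaces. -/
def body (d : ℝ) (S : Finset (Fin n → ℤ)) : Set (Euc n) :=
  closedBall 0 (1 - err n d) ∩
    ⋂ a ∈ S, {y | @inner ℝ _ _ (pt d a) y ≤ (‖pt d a‖ ^ 2 + beta) / 2 - 4 * err n d}

/-- Part of the unit ball removed by one grid point. -/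
def cutSet (d : ℝ) (a : Fin n → ℤ) : Set (Euc n) :=
  closedBall 0 1 ∩ {y | (‖pt d a‖ ^ 2 + beta) / 2 - 4 * err n d < @inner ℝ _ _ (pt d a) y}

lemma measurableSet_cutSet (a : Fin n → ℤ) : MeasurableSet (cutSet d a) :=
  measurableSet_closedBall.inter
    (isOpen_lt continuous_const (continuous_const.inner continuous_id)).measurableSet

lemma body_convexBody (h : Small n x d) {S : Finset (Fin n → ℤ)} (hS : S ⊆ grid n d) :
    IsConvexBody (body d S) := by
  refine ⟨?_, ?_, ?_⟩
  · refine (convex_closedBall _ _).inter (convex_iInter₂ fun a _ => ?_)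
    exact convex_halfSpace_le (innerSL ℝ (pt d a)).toLinearMap.isLinear _
  · refine (isCompact_closedBall _ _).inter_right (isClosed_biInter fun a _ => ?_)
    exact isClosed_le (continuous_const.inner continuous_id) continuous_const
  · refine ⟨0, interior_maximal (t := ball (0 : Euc n) (1 / 100)) ?_ isOpen_ball
      (mem_ball_self (by norm_num))⟩
    intro y hy
    rw [mem_ball, dist_zero_right] at hy
    have hee := h.err_le
    refine ⟨mem_closedBall_zero_iff.2 (by linarith), Set.mem_iInter₂.2 fun a ha => ?_⟩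
    have ha' := (mem_grid h.hd).1 (hS ha)
    have hi := real_inner_le_norm (pt d a) y
    have hb : beta = 1 - 1 / 10000 := rfl
    show @inner ℝ _ _ (pt d a) y ≤ _
    nlinarith [norm_nonneg (pt d a), norm_nonneg y, sq_nonneg ‖pt d a‖]

lemma not_mem_cap_of_mem_body (h : Small n x d) {S : Finset (Fin n → ℤ)} (hS : S ⊆ grid n d)
    {u v : Euc n} (hu : u ∈ body d S) (huv : ‖u - v‖ ≤ err n d) :
    ‖v‖ ≤ 1 ∧ ∀ a ∈ S, a ∉ cap d v := by
  obtain ⟨h1, h2⟩ := hu
  rw [mem_closedBall_zero_iff] at h1
  refine ⟨?_, fun a ha hcap => ?_⟩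
  · have : ‖v‖ ≤ ‖u‖ + ‖u - v‖ := norm_le_norm_add_norm_sub' v u |>.trans (by rw [norm_sub_rev])
    linarith
  · have h3 : @inner ℝ _ _ (pt d a) u ≤ (‖pt d a‖ ^ 2 + beta) / 2 - 4 * err n d :=
      Set.mem_iInter₂.1 h2 a ha
    have h4 := (mem_cap_iff.1 hcap).2
    have h5 := (mem_grid h.hd).1 (hS ha)
    have h6 := real_inner_le_norm (pt d a) (v - u)
    rw [inner_sub_right, norm_sub_rev] at h6
    nlinarith [norm_nonneg (pt d a), norm_nonneg (u - v)]

lemma sum_vol_cut (h : Small n x d) :
    ∑ a ∈ grid n d, (volume (cutSet d a)).toReal ≤ 2 * m0 n d * om n := by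
  have hom := om_pos (n := n)
  have hm := m0_pos (n := n) h.hd
  have hne : ∀ a ∈ grid n d, volume (cutSet d a) ≠ ⊤ := fun a _ =>
    ((measure_mono Set.inter_subset_left).trans_lt measure_closedBall_lt_top).ne
  rw [← ENNReal.toReal_sum hne]
  refine ENNReal.toReal_le_of_le_ofReal (by positivity) ?_
  have e1 : ∑ a ∈ grid n d, volume (cutSet d a) =
      ∫⁻ y, ∑ a ∈ grid n d, (cutSet d a).indicator (fun _ => (1 : ℝ≥0∞)) y := by
    rw [lintegral_finsetSum _ fun a _ => measurable_const.indicator (measurableSet_cutSet a)]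
    exact Finset.sum_congr rfl fun a _ =>
      (lintegral_indicator_one (measurableSet_cutSet a)).symm
  rw [e1]
  have e2 : ∀ y, ∑ a ∈ grid n d, (cutSet d a).indicator (fun _ => (1 : ℝ≥0∞)) y ≤
      (closedBall (0 : Euc n) 1).indicator (fun _ => ENNReal.ofReal (2 * m0 n d)) y := by
    intro y
    by_cases hy : y ∈ closedBall (0 : Euc n) 1
    swap
    · rw [Set.indicator_of_notMem hy]
      exact (Finset.sum_eq_zero fun a _ => Set.indicator_of_notMem (fun hc => hy hc.1) _).le
    rw [Set.indicator_of_mem hy]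
    rw [mem_closedBall_zero_iff] at hy
    set r := 1 / 100 * Real.exp (40000 * err n d) with hr
    have he := h.err_pos
    have hsub : (grid n d).filter (fun a => y ∈ cutSet d a) ⊆ gridBall d y r := by
      intro a ha
      obtain ⟨hag, hac⟩ := Finset.mem_filter.1 ha
      refine Finset.mem_filter.2 ⟨hag, ?_⟩
      have hlt : (‖pt d a‖ ^ 2 + beta) / 2 - 4 * err n d < @inner ℝ _ _ (pt d a) y := hac.2
      refine lt_of_pow_lt_pow_left₀ 2 (by positivity) ?_
      rw [norm_sub_sq_real, hr, mul_pow, sq (Real.exp _), ← Real.exp_add]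
      have := Real.add_one_le_exp (40000 * err n d + 40000 * err n d)
      have hb : beta = 1 - 1 / 10000 := rfl
      nlinarith [norm_nonneg y]
    have hsum : ∑ a ∈ grid n d, (cutSet d a).indicator (fun _ => (1 : ℝ≥0∞)) y =
        (((grid n d).filter fun a => y ∈ cutSet d a).card : ℝ≥0∞) := by
      rw [← Finset.sum_boole]
      exact Finset.sum_congr rfl fun a _ => by simp [Set.indicator]
    rw [hsum, ← ENNReal.ofReal_natCast]
    refine ENNReal.ofReal_le_ofReal ?_
    refine le_trans (Nat.cast_le.2 (Finset.card_le_card hsub)) ?_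
    have hx1 : 1 ≤ Real.exp (40000 * err n d) := Real.one_le_exp (by positivity)
    refine (card_le_scaled h.hd y (s := 40100 * err n d) (by positivity) ?_).trans ?_
    · rw [show 40100 * err n d = 40000 * err n d + 100 * err n d by ring, Real.exp_add,
        ← mul_assoc, ← hr]
      have hr1 : 1 / 100 ≤ r := by rw [hr]; linarith
      nlinarith [Real.add_one_le_exp (100 * err n d)]
    · rw [mul_comm]
      refine mul_le_mul_of_nonneg_right ?_ hm.le
      have h1 : (n : ℝ) * (40100 * err n d) ≤ 1 / 2 := by nlinarith [h.he]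
      refine (Real.exp_le_exp.2 h1).trans ?_
      have hh := Real.exp_bound' (x := 1 / 2) (by norm_num) (by norm_num) (n := 2) (by norm_num)
      norm_num [Finset.sum_range_succ, Nat.factorial] at hh ⊢
      linarith
  refine (lintegral_mono e2).trans ?_
  rw [lintegral_indicator measurableSet_closedBall, setLIntegral_const, vol_closedBall _ zero_le_one,
    one_pow, one_mul, ← ENNReal.ofReal_mul (by positivity)]

lemma vol_body_ge (h : Small n x d) {S : Finset (Fin n → ℤ)}
    (hf : ∑ a ∈ S, (volume (cutSet d a)).toReal ≤ om n / 2) :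
    ENNReal.ofReal (om n / 4) ≤ volume (body d S) := by
  have hom := om_pos (n := n)
  have hee := h.err_le
  have he := h.err_pos
  have hsub : closedBall (0 : Euc n) (1 - err n d) ⊆ body d S ∪ ⋃ a ∈ S, cutSet d a := by
    intro y hy
    by_cases hc : ∃ a ∈ S, (‖pt d a‖ ^ 2 + beta) / 2 - 4 * err n d < @inner ℝ _ _ (pt d a) y
    · obtain ⟨a, ha, hlt⟩ := hc
      exact Or.inr (Set.mem_iUnion₂.2 ⟨a, ha, ⟨closedBall_subset_closedBall (by linarith) hy, hlt⟩⟩)
    · push Not at hc
      exact Or.inl ⟨hy, Set.mem_iInter₂.2 hc⟩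
  have h1 := (measure_mono (μ := volume) hsub).trans (measure_union_le _ _)
  have h2 : volume (⋃ a ∈ S, cutSet d a) ≤ ENNReal.ofReal (om n / 2) := by
    refine (measure_biUnion_finset_le _ _).trans ?_
    have hne : ∀ a ∈ S, volume (cutSet d a) ≠ ⊤ := fun a _ =>
      ((measure_mono Set.inter_subset_left).trans_lt measure_closedBall_lt_top).ne
    rw [← ENNReal.ofReal_toReal (a := ∑ a ∈ S, volume (cutSet d a))
      ((ENNReal.sum_lt_top.2 fun a ha => (hne a ha).lt_top).ne), ENNReal.toReal_sum hne]
    exact ENNReal.ofReal_le_ofReal hf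
  rw [vol_closedBall _ (by linarith)] at h1
  have h3 : om n * (3 / 4) ≤ (1 - err n d) ^ n * om n := by
    have := one_add_mul_le_pow (a := -err n d) (by linarith) n
    rw [← sub_eq_add_neg] at this
    nlinarith [h.he]
  by_contra hc
  push Not at hc
  have h4 : ENNReal.ofReal (om n * (3 / 4)) <
      ENNReal.ofReal (om n / 4) + ENNReal.ofReal (om n / 2) :=
    (ENNReal.ofReal_le_ofReal h3).trans_lt (h1.trans_lt
      (ENNReal.add_lt_add_of_lt_of_le (ne_top_of_le_ne_top ENNReal.ofReal_ne_top h2) hc h2))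
  rw [← ENNReal.ofReal_add (by positivity) (by positivity), ENNReal.ofReal_lt_ofReal_iff
    (by positivity)] at h4
  linarith

lemma card_configs_le {α : Type*} [DecidableEq α] (G : Finset α) (M : ℕ) :
    (G.powerset.filter fun V => V.card ≤ M).card ≤ (G.card + 1) ^ M := by
  induction M with
  | zero =>
    refine le_trans (Finset.card_le_card (t := {∅}) ?_) (by simp)
    intro V hV
    simp only [Finset.mem_filter, Nat.le_zero, Finset.card_eq_zero] at hV
    simp [hV.2]
  | succ M ih =>
    have hsub : (G.powerset.filter fun V => V.card ≤ M + 1) ⊆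
        (G.powerset.filter fun V => V.card ≤ M) ∪
          (G ×ˢ (G.powerset.filter fun V => V.card ≤ M)).image (fun t => insert t.1 t.2) := by
      intro V hV
      simp only [Finset.mem_filter, Finset.mem_powerset] at hV
      by_cases hVM : V.card ≤ M
      · exact Finset.mem_union_left _ (by simp [hV.1, hVM])
      · obtain ⟨a, ha⟩ := Finset.card_pos.1 (show 0 < V.card by omega)
        refine Finset.mem_union_right _ (Finset.mem_image.2 ⟨(a, V.erase a), ?_, ?_⟩)
        · simp only [Finset.mem_product, Finset.mem_filter, Finset.mem_powerset]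
          exact ⟨hV.1 ha, (Finset.erase_subset _ _).trans hV.1, by
            rw [Finset.card_erase_of_mem ha]; omega⟩
        · exact Finset.insert_erase ha
    refine (Finset.card_le_card hsub).trans ((Finset.card_union_le _ _).trans ?_)
    refine (add_le_add le_rfl (Finset.card_image_le)).trans ?_
    rw [Finset.card_product, pow_succ']
    calc _ = (G.card + 1) * (G.powerset.filter fun V => V.card ≤ M).card := by ring
      _ ≤ _ := Nat.mul_le_mul_left _ ih

lemma card_grid_le (h : Small n x d) : ((grid n d).card : ℝ) + 1 ≤ (16 / d) ^ n := by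
  have hd := h.hd
  have hee := h.err_le
  have he := h.err_pos
  have hd1 : d ≤ 1 := by
    have : d * 1 ≤ err n d :=
      mul_le_mul_of_nonneg_left (Real.one_le_sqrt.2 h.npos) hd.le
    linarith
  have h1 := card_gridBall_le hd (0 : Euc n) (r := 4) (by norm_num)
  have h2 : gridBall d (0 : Euc n) 4 = grid n d :=
    Finset.filter_true_of_mem fun v hv => by rw [sub_zero]; exact (mem_grid hd).1 hv
  rw [h2] at h1
  have h3 : (4 + d * Real.sqrt n) ^ n * om n ≤ 15 ^ n := by
    calc (4 + d * Real.sqrt n) ^ n * om n ≤ (5 : ℝ) ^ n * 3 ^ n := by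
          refine mul_le_mul (pow_le_pow_left₀ (by positivity) ?_ n) om_le om_pos.le (by positivity)
          unfold err at hee; linarith
      _ = 15 ^ n := by rw [← mul_pow]; norm_num
  have hn0 : n ≠ 0 := by
    intro h0; have := h.npos; rw [h0] at this; norm_num at this
  have h4 : (15 : ℝ) ^ n + d ^ n ≤ 16 ^ n := by
    obtain ⟨m, rfl⟩ := Nat.exists_eq_succ_of_ne_zero hn0
    rw [Nat.succ_eq_add_one, pow_succ, pow_succ, pow_succ (16 : ℝ)]
    have a1 : (15 : ℝ) ^ m ≤ 16 ^ m := pow_le_pow_left₀ (by norm_num) (by norm_num) m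
    have a2 : d ^ m * d ≤ 1 * 1 :=
      mul_le_mul (pow_le_one₀ hd.le hd1) hd1 hd.le zero_le_one
    have a3 : (1 : ℝ) ≤ 16 ^ m := one_le_pow₀ (by norm_num)
    nlinarith
  rw [div_pow, le_div_iff₀ (by positivity)]
  linarith

lemma round_integral (h : Small n x d) (w : Euc n) (hw : ‖w‖ ≤ err n d) :
    ∀ z : Euc n, ∫⁻ y in closedBall (0 : Euc n) 1, wt n x (y - (z + w)) ≤
      ∫⁻ y in closedBall (0 : Euc n) (1 + err n d), wt n x (y - z) := by
  intro z
  rw [← lintegral_indicator measurableSet_closedBall, ← lintegral_indicator measurableSet_closedBall,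
    ← lintegral_add_right_eq_self
      (fun y => (closedBall (0 : Euc n) 1).indicator (fun y => wt n x (y - (z + w))) y) w]
  refine lintegral_mono fun y => ?_
  by_cases hy : y + w ∈ closedBall (0 : Euc n) 1
  · have hy' : y ∈ closedBall (0 : Euc n) (1 + err n d) := by
      rw [mem_closedBall_zero_iff] at hy ⊢
      have : ‖y‖ ≤ ‖y + w‖ + ‖w‖ := norm_le_add_norm_add y w
      linarith
    rw [Set.indicator_of_mem hy, Set.indicator_of_mem hy', add_sub_add_right_eq_sub]
  · rw [Set.indicator_of_notMem hy]; exact bot_le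

/-- A body that no sparse configuration can use to cover a window. -/
theorem exists_body (h : Small n x d) (hA : Asym x k) (hk : 0 < k) (hkx : k < Real.exp (x / 2))
    {L T M : ℕ}
    (hL : (L : ℝ) * (M : ℝ) ^ 2 * 8 ≤ 25 ^ n)
    (hT : (T : ℝ) * (M : ℝ) ^ 2 * 4 * 101 ^ n < x ^ n)
    (hTP : Real.exp (10005 * k + kap x * (k / x ^ 16)) ≤ (T : ℝ))
    (hU : ((16 / d) ^ n) ^ M *
      Real.exp (-((L : ℝ) * (1 / (1 + Real.exp (1 + 2 * (kap x * (k / x ^ 16))))))) ≤ 1 / 4) :
    ∃ K : Set (Euc n), IsConvexBody K ∧ K ⊆ closedBall 0 1 ∧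
      ENNReal.ofReal (om n / 4) ≤ volume K ∧
      ∀ (x₀ : Euc n) (Z : Finset (Euc n)), Z.card ≤ M → (∀ z ∈ Z, ‖z - x₀‖ ≤ 2) →
        ∫⁻ y in closedBall (0 : Euc n) (1 + err n d), ∑ z ∈ Z, wt n x (y - (z - x₀))
          ≤ ENNReal.ofReal (k / 2 * om n) →
        ∃ y ∈ closedBall (0 : Euc n) 1, ∀ z ∈ Z, y + x₀ - z ∉ K := by
  have hp := (prob_pos (n := n) h.hd).le
  have hp1 := prob_le_one h
  set G := grid n d with hG
  set Cfg := (G.powerset.filter fun V => V.card ≤ M).filter fun V => V.Nonempty ∧
    ∫⁻ y in closedBall (0 : Euc n) 1, ∑ z ∈ V.image (pt d), wt n x (y - z)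
      ≤ ENNReal.ofReal (k / 2 * om n) with hCfg
  set eps := Real.exp (-((L : ℝ) * (1 / (1 + Real.exp (1 + 2 * (kap x * (k / x ^ 16)))))))
  set f : Finset (Fin n → ℤ) → ℝ := fun S => ∑ a ∈ S, (volume (cutSet d a)).toReal
  have hbad1 : pr (prob n d) G (fun S => ∃ V ∈ Cfg, Cov d (V.image (pt d)) S) ≤ 1 / 4 := by
    refine (pr_exists_le hp hp1 G Cfg _).trans ?_
    have hc : (Cfg.card : ℝ) ≤ ((16 / d) ^ n) ^ M := by
      have : Cfg.card ≤ (G.card + 1) ^ M :=
        (Finset.card_filter_le _ _).trans (card_configs_le G M)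
      calc (Cfg.card : ℝ) ≤ (((G.card + 1) ^ M : ℕ) : ℝ) := by exact_mod_cast this
        _ = ((G.card : ℝ) + 1) ^ M := by push_cast; ring
        _ ≤ _ := pow_le_pow_left₀ (by positivity) (card_grid_le h) _
    calc ∑ V ∈ Cfg, pr (prob n d) G (Cov d (V.image (pt d))) ≤ ∑ _V ∈ Cfg, eps := by
          refine Finset.sum_le_sum fun V hV => ?_
          rw [hCfg, Finset.mem_filter, Finset.mem_filter] at hV
          exact config_fail h hA hk hkx (hV.2.1.image _)
            (Finset.card_image_le.trans hV.1.2) hV.2.2 hL hT hTP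
      _ = Cfg.card * eps := by rw [Finset.sum_const, nsmul_eq_mul]
      _ ≤ 1 / 4 := (mul_le_mul_of_nonneg_right hc (Real.exp_nonneg _)).trans hU
  have hbad2 : pr (prob n d) G (fun S => om n / 2 ≤ f S) ≤ 1 / 2 := by
    have hom := om_pos (n := n)
    refine (markov hp hp1 (fun S => Finset.sum_nonneg fun a _ => ENNReal.toReal_nonneg)
      (by positivity)).trans ?_
    have he : wExp (prob n d) G f =
        prob n d * ∑ a ∈ G, (volume (cutSet d a)).toReal := by
      have h1 : wExp (prob n d) G f = wExp (prob n d) G (fun S =>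
          ∑ a ∈ G, (volume (cutSet d a)).toReal * indic (fun S => a ∈ S) S) := by
        refine Finset.sum_congr rfl fun S hS => ?_
        congr 1
        simp only [f, indic, mul_ite, mul_one, mul_zero]
        rw [← Finset.sum_filter, Finset.filter_mem_eq_inter,
          Finset.inter_eq_right.2 (Finset.mem_powerset.1 hS)]
      rw [h1, wExp_sum, Finset.mul_sum]
      refine Finset.sum_congr rfl fun a ha => ?_
      rw [wExp_const_mul]
      have h2 : pr (prob n d) G (fun S => a ∈ S) = prob n d := by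
        have h3 := pr_miss (p := prob n d) (G := G) (C := {a}) (by simpa using ha)
        simp only [Finset.mem_singleton, forall_eq, Finset.card_singleton, pow_one] at h3
        rw [pr_not] at h3
        linarith
      rw [show wExp (prob n d) G (indic fun S => a ∈ S) = prob n d from h2]; ring
    rw [he, div_le_iff₀ (by positivity)]
    have := sum_vol_cut h
    have h8 := prob_mul_m0 (n := n) h.hd
    nlinarith [mul_le_mul_of_nonneg_left this hp]
  obtain ⟨S, hSG, hS⟩ := exists_subset_not_of_pr_lt hp hp1 (G := G)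
    (A := fun S => ∃ i ∈ ({true, false} : Finset Bool),
      cond i (∃ V ∈ Cfg, Cov d (V.image (pt d)) S) (om n / 2 ≤ f S)) (by
      refine lt_of_le_of_lt (pr_exists_le hp hp1 G _ fun (i : Bool) S =>
        cond i (∃ V ∈ Cfg, Cov d (V.image (pt d)) S) (om n / 2 ≤ f S)) ?_
      rw [Finset.sum_insert (by simp), Finset.sum_singleton]
      simp only [cond_true, cond_false]
      linarith)
  have hS1 : ∀ V ∈ Cfg, ¬ Cov d (V.image (pt d)) S := fun V hV hC =>
    hS ⟨true, by simp, V, hV, hC⟩
  have hS2 : f S < om n / 2 := not_le.1 fun hC => hS ⟨false, by simp, hC⟩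
  have he := h.err_pos
  refine ⟨body d S, body_convexBody h hSG, Set.inter_subset_left.trans
    (closedBall_subset_closedBall (by linarith)), vol_body_ge h hS2.le, ?_⟩
  intro x₀ Z hZ hnear hI
  rcases Z.eq_empty_or_nonempty with rfl | hne
  · exact ⟨0, mem_closedBall_self zero_le_one, by simp⟩
  set V := Z.image fun z => rnd d (z - x₀) with hV
  have hclose : ∀ z : Euc n, ‖(z - x₀) - pt d (rnd d (z - x₀))‖ ≤ err n d := fun z =>
    norm_sub_pt_le h.hd (mem_cell_rnd h.hd _)
  have hVC : V ∈ Cfg := by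
    rw [hCfg, Finset.mem_filter, Finset.mem_filter, Finset.mem_powerset]
    refine ⟨⟨?_, Finset.card_image_le.trans hZ⟩, hne.image _, ?_⟩
    · intro v hv
      obtain ⟨z, hz, rfl⟩ := Finset.mem_image.1 hv
      rw [hG, mem_grid h.hd]
      have := norm_le_insert (z - x₀) (pt d (rnd d (z - x₀)))
      have := hclose z
      have := hnear z hz
      have := h.err_le
      linarith
    · refine le_trans ?_ hI
      have hm : ∀ c : Euc n, Measurable fun y => wt n x (y - c) := fun c =>
        measurable_wt.comp (measurable_id.sub_const c)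
      rw [lintegral_finsetSum _ (fun z _ => hm z), lintegral_finsetSum _ (fun z _ => hm (z - x₀)),
        hV, Finset.image_image]
      refine (Finset.sum_image_le_of_nonneg fun _ _ => bot_le).trans (Finset.sum_le_sum fun z _ => ?_)
      show ∫⁻ y in closedBall (0 : Euc n) 1, wt n x (y - pt d (rnd d (z - x₀))) ≤ _
      have hr := round_integral (x := x) h (pt d (rnd d (z - x₀)) - (z - x₀))
        (by rw [norm_sub_rev]; exact hclose z) (z - x₀)
      rw [show z - x₀ + (pt d (rnd d (z - x₀)) - (z - x₀)) = pt d (rnd d (z - x₀)) by abel] at hr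
      exact hr
  have hnc := hS1 V hVC
  simp only [Cov, not_forall] at hnc
  obtain ⟨y, hy, hnc⟩ := hnc
  refine ⟨y, hy, fun z hz hK => hnc ?_⟩
  obtain ⟨h1, h2⟩ := not_mem_cap_of_mem_body h hSG hK
    (v := y - pt d (rnd d (z - x₀))) (by
      rw [show y + x₀ - z - (y - pt d (rnd d (z - x₀))) = -((z - x₀) - pt d (rnd d (z - x₀))) by abel,
        norm_neg]
      exact hclose z)
  exact ⟨_, Finset.mem_image_of_mem _ (Finset.mem_image_of_mem _ hz), h1, h2⟩

end Vale.Agent.P230
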