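import Vale.Agent.P230.Grid

/-!
Caps: the grid points whose half-space cuts off a given point form a Euclidean ball.
-/

namespace Vale.Agent.P230

open MeasureTheory Metric Finset Real
open scoped Classical

variable {n : ℕ}

/-- Grid error. -/
noncomputable def err (n : ℕ) (d : ℝ) : ℝ := d * Real.sqrt n

/-- Squared radius deficit. -/
noncomputable def beta : ℝ := 1 - 1 / 10000

/-- Radius of the cap of `u`. -/
noncomputable def rho (u : Euc n) : ℝ := Real.sqrt (‖u‖ ^ 2 - beta)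

/-- The grid points whose half-space cuts off `u`. -/
noncomputable def cap (d : ℝ) (u : Euc n) : Finset (Fin n → ℤ) := gridBall d u (rho u)

/-- Reference cap count. -/
noncomputable def m0 (n : ℕ) (d : ℝ) : ℝ := (1 / 100) ^ n * om n / d ^ n

/-- Selection probability of a grid point. -/
noncomputable def prob (n : ℕ) (d : ℝ) : ℝ := 1 / (8 * m0 n d)

/-- Parameters in the range where all estimates hold. -/
structure Small (n : ℕ) (x d : ℝ) : Prop where
  hn : (n : ℝ) = x ^ 20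
  hx : 1000000 ≤ x
  hd : 0 < d
  he : (n : ℝ) * err n d ≤ 1 / 1000000

lemma Small.npos {x d : ℝ} (h : Small n x d) : (1 : ℝ) ≤ n := by
  rw [h.hn]; exact one_le_pow₀ (by linarith [h.hx])

lemma Small.err_pos {x d : ℝ} (h : Small n x d) : 0 < err n d :=
  mul_pos h.hd (Real.sqrt_pos.2 (by linarith [h.npos]))

lemma Small.err_le {x d : ℝ} (h : Small n x d) : err n d ≤ 1 / 1000000 := by
  nlinarith [h.he, h.npos, h.err_pos]

lemma exp_neg_le_one_sub {v : ℝ} (h0 : 0 ≤ v) (h1 : v ≤ 1 / 2) :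
    Real.exp (-(2 * v)) ≤ 1 - v := by
  rw [Real.exp_neg, inv_le_iff_one_le_mul₀ (Real.exp_pos _)]
  nlinarith [Real.add_one_le_exp (2 * v)]

lemma mem_cap_iff {d : ℝ} {u : Euc n} {a : Fin n → ℤ} :
    a ∈ cap d u ↔ a ∈ grid n d ∧
      (‖pt d a‖ ^ 2 + beta) / 2 < @inner ℝ _ _ (pt d a) u := by
  rw [cap, gridBall, Finset.mem_filter, rho]
  refine and_congr_right fun _ => ?_
  rw [Real.lt_sqrt (norm_nonneg _), norm_sub_sq_real]
  constructor <;> intro h <;> linarith

lemma rho_le {u : Euc n} (hu : ‖u‖ ≤ 1) : rho u ≤ 1 / 100 := by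
  rw [rho, Real.sqrt_le_left (by norm_num)]
  nlinarith [norm_nonneg u, beta, show beta = 1 - 1 / 10000 from rfl]

lemma m0_pos {d : ℝ} (hd : 0 < d) : 0 < m0 n d := by
  have := om_pos (n := n); unfold m0; positivity

lemma prob_pos {d : ℝ} (hd : 0 < d) : 0 < prob n d := by
  have := m0_pos (n := n) hd; unfold prob; positivity

lemma prob_mul_m0 {d : ℝ} (hd : 0 < d) : prob n d * m0 n d = 1 / 8 := by
  have := m0_pos (n := n) hd; unfold prob; field_simp

lemma card_le_scaled {d : ℝ} (hd : 0 < d) (c : Euc n) {r s : ℝ} (hr : 0 ≤ r)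
    (h : r + err n d ≤ 1 / 100 * Real.exp s) :
    ((gridBall d c r).card : ℝ) ≤ m0 n d * Real.exp (n * s) := by
  have h1 := card_gridBall_le hd c hr
  have h2 : (r + d * Real.sqrt n) ^ n ≤ (1 / 100 * Real.exp s) ^ n :=
    pow_le_pow_left₀ (add_nonneg hr (mul_nonneg hd.le (Real.sqrt_nonneg _))) h _
  rw [mul_pow, ← Real.exp_nat_mul] at h2
  rw [m0, div_mul_eq_mul_div, le_div_iff₀ (pow_pos hd _)]
  have := mul_le_mul_of_nonneg_right h2 (om_pos (n := n)).le
  linarith

lemma le_card_scaled {d : ℝ} (hd : 0 < d) (c : Euc n) {r s : ℝ} (hc : ‖c‖ + r ≤ 4)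
    (h : 1 / 100 * Real.exp (-s) ≤ r - err n d) :
    m0 n d * Real.exp (-(n * s)) ≤ ((gridBall d c r).card : ℝ) := by
  have hpos : 0 < r - err n d := lt_of_lt_of_le (by positivity) h
  have h1 := le_card_gridBall hd c (r := r) (by unfold err at hpos; linarith) hc
  have h2 : (1 / 100 * Real.exp (-s)) ^ n ≤ (r - d * Real.sqrt n) ^ n :=
    pow_le_pow_left₀ (by positivity) h _
  rw [mul_pow, ← Real.exp_nat_mul, mul_neg] at h2
  rw [m0, div_mul_eq_mul_div, div_le_iff₀ (pow_pos hd _)]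
  have := mul_le_mul_of_nonneg_right h2 (om_pos (n := n)).le
  linarith

lemma card_cap_le {x d : ℝ} (h : Small n x d) {u : Euc n} (hu : ‖u‖ ≤ 1) :
    ((cap d u).card : ℝ) ≤ m0 n d * 2 := by
  have he := h.err_pos
  have h1 := card_le_scaled h.hd u (r := rho u) (s := 100 * err n d) (Real.sqrt_nonneg _) (by
    have := rho_le hu
    nlinarith [Real.add_one_le_exp (100 * err n d)])
  refine h1.trans (mul_le_mul_of_nonneg_left ?_ (m0_pos h.hd).le)
  have : (n : ℝ) * (100 * err n d) ≤ 1 / 2 := by nlinarith [h.he]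
  refine (Real.exp_le_exp.2 this).trans ?_
  have := exp_neg_le_one_sub (v := 1 / 4) (by norm_num) (by norm_num)
  rw [Real.exp_neg, inv_le_iff_one_le_mul₀ (Real.exp_pos _)] at this
  have h' : Real.exp (1 / 2) ≤ 2 := by
    have hh := Real.exp_bound' (x := 1 / 2) (by norm_num) (by norm_num) (n := 2) (by norm_num)
    norm_num [Finset.sum_range_succ, Nat.factorial] at hh ⊢
    linarith
  exact h'

lemma le_rho {u : Euc n} {v : ℝ} (h0 : 0 ≤ v) (h1 : v ≤ 1 / 2)
    (hv : 1 - v / 10000 ≤ ‖u‖ ^ 2) : 1 / 100 * Real.exp (-v) ≤ rho u := by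
  rw [rho, Real.le_sqrt (by positivity) (by
    have : beta = 1 - 1 / 10000 := rfl
    nlinarith), mul_pow, sq (Real.exp (-v)), ← Real.exp_add]
  have := exp_neg_le_one_sub h0 h1
  have hb : beta = 1 - 1 / 10000 := rfl
  rw [show -v + -v = -(2 * v) by ring]
  nlinarith

lemma le_card_cap {x d : ℝ} (h : Small n x d) {u : Euc n} (hu1 : ‖u‖ ≤ 1) {t : ℝ}
    (ht : (n : ℝ) * (1 - ‖u‖ ^ 2) = t) (htx : t ≤ x) :
    m0 n d * Real.exp (-(10000 * t + 1)) ≤ ((cap d u).card : ℝ) := by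
  have hnp := h.npos
  have he := h.err_pos
  have hee := h.err_le
  have ht0 : 0 ≤ t := by
    rw [← ht]; exact mul_nonneg (by linarith) (sub_nonneg.2 (pow_le_one₀ (norm_nonneg u) hu1))
  set v := 10000 * t / n with hv
  have hv0 : 0 ≤ v := by positivity
  have hv1 : v ≤ 1 / 2 := by
    rw [hv, div_le_iff₀ (by linarith), h.hn]
    have hx := h.hx
    have h2 : x ^ 2 ≤ x ^ 20 := pow_le_pow_right₀ (by linarith) (by norm_num)
    nlinarith
  have hr := le_rho (u := u) hv0 hv1 (by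
    have : v / 10000 = 1 - ‖u‖ ^ 2 := by rw [hv, ← ht]; field_simp
    linarith)
  have hr2 : (1 : ℝ) / 300 ≤ rho u := by
    refine le_trans ?_ hr
    have : Real.exp (-1) ≤ Real.exp (-v) := Real.exp_le_exp.2 (by linarith)
    have : (1 : ℝ) / 3 ≤ Real.exp (-1) := by
      rw [Real.exp_neg, one_div, inv_le_inv₀ (by norm_num) (Real.exp_pos _)]
      exact Real.exp_one_lt_three.le
    linarith
  have hs : 1 / 100 * Real.exp (-(v + 600 * err n d)) ≤ rho u - err n d := by
    rw [neg_add, Real.exp_add, ← mul_assoc]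
    have h6 := exp_neg_le_one_sub (v := 300 * err n d) (by positivity) (by linarith)
    rw [show -(2 * (300 * err n d)) = -(600 * err n d) by ring] at h6
    calc _ ≤ rho u * (1 - 300 * err n d) := mul_le_mul hr h6 (Real.exp_nonneg _) (by linarith)
      _ ≤ _ := by nlinarith
  refine le_trans ?_ (le_card_scaled h.hd u (by linarith [rho_le hu1]) hs)
  refine mul_le_mul_of_nonneg_left (Real.exp_le_exp.2 ?_) (m0_pos h.hd).le
  have : (n : ℝ) * v = 10000 * t := by rw [hv]; field_simp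
  nlinarith [h.he]

lemma card_lens_le {x d : ℝ} (h : Small n x d) {u v : Euc n} (hu : ‖u‖ ≤ 1) (hv : ‖v‖ ≤ 1)
    {r : ℝ} (hr0 : 0 ≤ r) (hr : r ≤ ‖u - v‖) :
    (((cap d u) ∩ (cap d v)).card : ℝ) ≤ m0 n d * Real.exp (1 - 1250 * (n * r ^ 2)) := by
  have hm := m0_pos (n := n) h.hd
  by_cases hemp : (cap d u ∩ cap d v).Nonempty
  swap
  · rw [Finset.not_nonempty_iff_eq_empty.1 hemp]; simp only [card_empty, Nat.cast_zero]; positivity
  have hball : ∀ a ∈ cap d u ∩ cap d v,
      ‖pt d a - (1 / 2 : ℝ) • (u + v)‖ ^ 2 + r ^ 2 / 4 < 1 / 10000 ∧ a ∈ grid n d := by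
    intro a ha
    rw [Finset.mem_inter] at ha
    obtain ⟨ha1, hau⟩ := Finset.mem_filter.1 ha.1
    obtain ⟨-, hav⟩ := Finset.mem_filter.1 ha.2
    have h1 : ‖pt d a - u‖ ^ 2 < 1 / 10000 := by
      have := rho_le hu; nlinarith [norm_nonneg (pt d a - u)]
    have h2 : ‖pt d a - v‖ ^ 2 < 1 / 10000 := by
      have := rho_le hv; nlinarith [norm_nonneg (pt d a - v)]
    have hp := parallelogram_law_with_norm ℝ (pt d a - u) (pt d a - v)
    rw [show pt d a - u + (pt d a - v) = (2 : ℝ) • (pt d a - (1 / 2 : ℝ) • (u + v)) by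
      rw [smul_sub, smul_smul]; norm_num [two_smul]; abel,
      show pt d a - u - (pt d a - v) = -(u - v) by abel, norm_neg, norm_smul,
      Real.norm_two] at hp
    refine ⟨?_, ha1⟩
    nlinarith [mul_self_le_mul_self hr0 hr]
  obtain ⟨a0, ha0⟩ := hemp
  have hr2 : r ^ 2 / 4 < 1 / 10000 := by
    have := (hball a0 ha0).1; nlinarith [norm_nonneg (pt d a0 - (1 / 2 : ℝ) • (u + v))]
  set w := 2500 * r ^ 2 with hw
  have hsub : cap d u ∩ cap d v ⊆
      gridBall d ((1 / 2 : ℝ) • (u + v)) (1 / 100 * Real.exp (-(w / 2))) := by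
    intro a ha
    obtain ⟨h1, h2⟩ := hball a ha
    refine Finset.mem_filter.2 ⟨h2, ?_⟩
    refine lt_of_pow_lt_pow_left₀ 2 (by positivity) ?_
    rw [mul_pow, sq (Real.exp _), ← Real.exp_add, show -(w / 2) + -(w / 2) = -w by ring]
    have := Real.one_sub_le_exp_neg w
    nlinarith
  have h1 : ((cap d u ∩ cap d v).card : ℝ) ≤
      (gridBall d ((1 / 2 : ℝ) • (u + v)) (1 / 100 * Real.exp (-(w / 2)))).card := by
    exact_mod_cast Finset.card_le_card hsub
  refine (h1.trans (card_le_scaled h.hd _ (s := -(w / 2) + 200 * err n d) (by positivity) ?_)).trans ?_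
  · rw [Real.exp_add, ← mul_assoc]
    have h2 : (1 : ℝ) / 2 ≤ Real.exp (-(w / 2)) := by
      have := Real.one_sub_le_exp_neg (w / 2)
      nlinarith
    nlinarith [Real.add_one_le_exp (200 * err n d), h.err_pos,
      Real.exp_pos (-(w / 2))]
  · refine mul_le_mul_of_nonneg_left (Real.exp_le_exp.2 ?_) hm.le
    nlinarith [h.he]

lemma cap_disjoint {d : ℝ} {u v : Euc n} (hu : ‖u‖ ≤ 1) (hv : ‖v‖ ≤ 1)
    (h : 1 / 50 ≤ ‖u - v‖) : Disjoint (cap d u) (cap d v) := by
  rw [Finset.disjoint_left]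
  intro a ha hb
  have h1 := (Finset.mem_filter.1 ha).2
  have h2 := (Finset.mem_filter.1 hb).2
  have h3 : ‖u - v‖ ≤ ‖pt d a - v‖ + ‖pt d a - u‖ := by
    rw [show u - v = (pt d a - v) - (pt d a - u) by abel]; exact norm_sub_le _ _
  linarith [rho_le hu, rho_le hv]

end Vale.Agent.P230
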