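import Vale.Agent.P230.Point

/-!
For a fixed configuration of translates, the unit ball stays covered with tiny probability.
-/

namespace Vale.Agent.P230

open Finset Real MeasureTheory Metric
open scoped Classical ENNReal

variable {n : ℕ} {x d k : ℝ}

/-- Weight: number of layers around `u`, plus a penalty for deep points. -/
noncomputable def wt (n : ℕ) (x : ℝ) (u : Euc n) : ℝ≥0∞ :=
  (∑ j ∈ Finset.range n,
    (closedBall (0 : Euc n) (Real.sqrt (1 - (j : ℝ) / n))).indicator (fun _ => 1) u) +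
  (ball (0 : Euc n) (Real.sqrt (1 - x / n))).indicator (fun _ => ENNReal.ofReal (Real.exp (x / 2))) u

lemma measurable_wt : Measurable (wt n x) :=
  (Finset.measurable_sum _ fun _ _ => measurable_const.indicator measurableSet_closedBall).add
    (measurable_const.indicator measurableSet_ball)

lemma measurable_load (Z : Finset (Euc n)) : Measurable fun y => ∑ z ∈ Z, wt n x (y - z) :=
  Finset.measurable_sum _ fun z _ => measurable_wt.comp (measurable_id.sub_const z)

lemma x_le_n (h : Small n x d) : x ≤ n := by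
  rw [h.hn]; exact le_self_pow₀ (by linarith [h.hx]) (by norm_num)

lemma lintegral_wt (h : Small n x d) : ∫⁻ u, wt n x u ≤ ENNReal.ofReal (4 * om n) := by
  have hn := h.npos
  have hom := om_pos (n := n)
  unfold wt
  rw [lintegral_add_right _ (measurable_const.indicator measurableSet_ball),
    lintegral_finsetSum _ (fun j _ => measurable_const.indicator measurableSet_closedBall)]
  simp only [lintegral_indicator measurableSet_closedBall, lintegral_indicator measurableSet_ball,
    setLIntegral_const, one_mul]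
  have hexp : ∀ t : ℝ, 0 ≤ t → t ≤ n → Real.sqrt (1 - t / n) ^ n ≤ Real.exp (-(t / 2)) := by
    intro t ht0 htn
    have h1 : Real.sqrt (1 - t / n) ≤ Real.exp (-(t / (2 * n))) := by
      rw [Real.sqrt_le_left (Real.exp_nonneg _), sq, ← Real.exp_add]
      refine le_trans (Real.one_sub_le_exp_neg (t / n)) (Real.exp_le_exp.2 (le_of_eq ?_))
      field_simp; ring
    refine (pow_le_pow_left₀ (Real.sqrt_nonneg _) h1 n).trans (le_of_eq ?_)
    rw [← Real.exp_nat_mul]; congr 1; field_simp
  have h1 : ∀ j ∈ Finset.range n,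
      volume (closedBall (0 : Euc n) (Real.sqrt (1 - (j : ℝ) / n))) ≤
        ENNReal.ofReal (Real.exp (-(1 / 2)) ^ j * om n) := by
    intro j hj
    rw [vol_closedBall _ (Real.sqrt_nonneg _)]
    refine ENNReal.ofReal_le_ofReal (mul_le_mul_of_nonneg_right ?_ hom.le)
    refine (hexp j (Nat.cast_nonneg j) ?_).trans (le_of_eq ?_)
    · exact_mod_cast (Finset.mem_range.1 hj).le
    · rw [← Real.exp_nat_mul]; ring_nf
  have h2 : ENNReal.ofReal (Real.exp (x / 2)) *
      volume (ball (0 : Euc n) (Real.sqrt (1 - x / n))) ≤ ENNReal.ofReal (om n) := by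
    refine le_trans (mul_le_mul_right (measure_mono ball_subset_closedBall) _) ?_
    rw [vol_closedBall _ (Real.sqrt_nonneg _), ← ENNReal.ofReal_mul (Real.exp_nonneg _)]
    refine ENNReal.ofReal_le_ofReal ?_
    rw [← mul_assoc]
    refine mul_le_of_le_one_left hom.le ?_
    have := hexp x h.xpos.le (x_le_n h)
    calc _ ≤ Real.exp (x / 2) * Real.exp (-(x / 2)) :=
          mul_le_mul_of_nonneg_left this (Real.exp_nonneg _)
      _ = 1 := by rw [← Real.exp_add]; simp
  refine (add_le_add (Finset.sum_le_sum h1) h2).trans ?_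
  rw [← ENNReal.ofReal_sum_of_nonneg (fun j _ => by positivity),
    ← ENNReal.ofReal_add (Finset.sum_nonneg fun j _ => by positivity) hom.le, ← Finset.sum_mul]
  refine ENNReal.ofReal_le_ofReal ?_
  have hr : Real.exp (-(1 / 2)) ≤ 2 / 3 := by
    rw [Real.exp_neg, inv_le_comm₀ (Real.exp_pos _) (by norm_num)]
    linarith [Real.add_one_le_exp (1 / 2 : ℝ)]
  have hgeo : ∑ j ∈ Finset.range n, Real.exp (-(1 / 2)) ^ j ≤ 3 := by
    calc ∑ j ∈ Finset.range n, Real.exp (-(1 / 2)) ^ j
        ≤ ∑ j ∈ Finset.range n, (2 / 3 : ℝ) ^ j :=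
          Finset.sum_le_sum fun j _ => pow_le_pow_left₀ (Real.exp_nonneg _) hr j
      _ ≤ 3 := by
          rw [geom_sum_eq (by norm_num)]
          have : (0 : ℝ) ≤ (2 / 3) ^ n := by positivity
          rw [div_le_iff_of_neg (by norm_num)]
          linarith
  nlinarith

/-- Test points of a configuration. -/
def goodSet (n : ℕ) (x k : ℝ) (Z : Finset (Euc n)) : Set (Euc n) :=
  closedBall 0 1 ∩ {y | ∑ z ∈ Z, wt n x (y - z) ≤ ENNReal.ofReal k}

lemma isTest_of_good (h : Small n x d) (hk : 0 ≤ k) (hkx : k < Real.exp (x / 2))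
    {Z : Finset (Euc n)} {y : Euc n} (hy : y ∈ goodSet n x k Z) : IsTest x k Z y := by
  have hn := h.npos
  have hsum : ∑ z ∈ near Z y, wt n x (y - z) ≤ ENNReal.ofReal k :=
    le_trans (Finset.sum_le_sum_of_subset (Finset.filter_subset _ _)) hy.2
  have hwt : ∀ z ∈ near Z y, ENNReal.ofReal (max 1 (dep y z)) ≤ wt n x (y - z) := by
    intro z hz
    refine le_trans ?_ le_self_add
    have hdn : dep y z ≤ n := by
      unfold dep; nlinarith [sq_nonneg ‖y - z‖]
    set m := min ⌈max 1 (dep y z)⌉₊ n with hm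
    have hsub : ((Finset.range n).filter fun j : ℕ =>
        ‖y - z‖ ≤ Real.sqrt (1 - (j : ℝ) / n)) ⊇ Finset.range m := by
      intro j hj
      rw [Finset.mem_range, hm, lt_min_iff, Nat.lt_ceil] at hj
      refine Finset.mem_filter.2 ⟨Finset.mem_range.2 hj.2, ?_⟩
      have hj1 : (j : ℝ) ≤ dep y z := by
        rcases Nat.eq_zero_or_pos j with rfl | hjpos
        · exact_mod_cast dep_nonneg hz
        · rcases lt_max_iff.1 hj.1 with h1 | h1
          · exfalso
            have : (1 : ℝ) ≤ j := by exact_mod_cast hjpos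
            linarith
          · exact h1.le
      apply Real.le_sqrt_of_sq_le
      rw [le_sub_comm, div_le_iff₀ (by linarith)]
      unfold dep at hj1
      linarith
    have hmr : max 1 (dep y z) ≤ (m : ℝ) := by
      rw [hm, Nat.cast_min, le_min_iff]
      exact ⟨Nat.le_ceil _, max_le hn hdn⟩
    calc ENNReal.ofReal (max 1 (dep y z)) ≤ ENNReal.ofReal (m : ℝ) := ENNReal.ofReal_le_ofReal hmr
      _ = ∑ _j ∈ Finset.range m, (1 : ℝ≥0∞) := by simp
      _ ≤ ∑ _j ∈ (Finset.range n).filter (fun j : ℕ => ‖y - z‖ ≤ Real.sqrt (1 - (j : ℝ) / n)),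
            (1 : ℝ≥0∞) := Finset.sum_le_sum_of_subset hsub
      _ = _ := by
          rw [Finset.sum_filter]
          refine Finset.sum_congr rfl fun j _ => ?_
          simp [Set.indicator, mem_closedBall]
  have hreal : ∑ z ∈ near Z y, max 1 (dep y z) ≤ k := by
    have := (Finset.sum_le_sum hwt).trans hsum
    rwa [← ENNReal.ofReal_sum_of_nonneg (fun z _ => le_trans zero_le_one (le_max_left _ _)),
      ENNReal.ofReal_le_ofReal_iff hk] at this
  refine ⟨?_, ?_, ?_⟩
  · refine le_trans (le_of_eq ?_) ((Finset.sum_le_sum fun z _ => le_max_left 1 _).trans hreal)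
    simp
  · exact (Finset.sum_le_sum fun z _ => le_max_right 1 _).trans hreal
  · intro z hz
    by_contra hc
    push Not at hc
    have h1 : y - z ∈ ball (0 : Euc n) (Real.sqrt (1 - x / n)) := by
      rw [mem_ball, dist_zero_right]
      refine Real.lt_sqrt_of_sq_lt ?_
      unfold dep at hc
      rw [lt_sub_comm, div_lt_iff₀ (by linarith)]
      linarith
    have h2 : ENNReal.ofReal (Real.exp (x / 2)) ≤ wt n x (y - z) := by
      refine le_trans (le_of_eq ?_) le_add_self
      rw [Set.indicator_of_mem h1]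
    have h3 : ENNReal.ofReal (Real.exp (x / 2)) ≤ ENNReal.ofReal k :=
      h2.trans ((Finset.single_le_sum (f := fun z => wt n x (y - z)) (fun _ _ => bot_le) hz).trans
        hsum)
    rw [ENNReal.ofReal_le_ofReal_iff hk] at h3
    linarith

lemma measurableSet_goodSet (Z : Finset (Euc n)) : MeasurableSet (goodSet n x k Z) :=
  measurableSet_closedBall.inter (measurableSet_le (measurable_load Z) measurable_const)

lemma vol_goodSet (hk : 0 < k) {Z : Finset (Euc n)}
    (hI : ∫⁻ y in closedBall (0 : Euc n) 1, ∑ z ∈ Z, wt n x (y - z)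
      ≤ ENNReal.ofReal (k / 2 * om n)) :
    ENNReal.ofReal (om n / 2) ≤ volume (goodSet n x k Z) := by
  have hom := om_pos (n := n)
  set f := fun y => ∑ z ∈ Z, wt n x (y - z)
  set bad := {y | ENNReal.ofReal k < f y} with hbad
  have h1 : ENNReal.ofReal k * volume (bad ∩ closedBall 0 1) ≤ ENNReal.ofReal (k / 2 * om n) := by
    refine le_trans ?_ hI
    refine le_trans ?_ (mul_meas_ge_le_lintegral₀ (measurable_load Z).aemeasurable (ENNReal.ofReal k))
    rw [Measure.restrict_apply' measurableSet_closedBall]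
    refine mul_le_mul_right (measure_mono ?_) _
    intro y hy
    exact ⟨le_of_lt (show ENNReal.ofReal k < ∑ z ∈ Z, wt n x (y - z) from hy.1), hy.2⟩
  rw [show k / 2 * om n = k * (om n / 2) by ring, ENNReal.ofReal_mul hk.le,
    ENNReal.mul_le_mul_iff_right (by simpa using hk) ENNReal.ofReal_ne_top] at h1
  have h2 : closedBall (0 : Euc n) 1 ⊆ goodSet n x k Z ∪ (bad ∩ closedBall 0 1) := by
    intro y hy
    rcases le_or_gt (f y) (ENNReal.ofReal k) with h | h
    · exact Or.inl ⟨hy, h⟩
    · exact Or.inr ⟨h, hy⟩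
  have h3 := (measure_mono (μ := volume) h2).trans (measure_union_le _ _)
  rw [vol_closedBall _ zero_le_one, one_pow, one_mul] at h3
  by_contra hc
  push Not at hc
  have : volume (goodSet n x k Z) + volume (bad ∩ closedBall 0 1) <
      ENNReal.ofReal (om n / 2) + ENNReal.ofReal (om n / 2) :=
    ENNReal.add_lt_add_of_lt_of_le (ne_top_of_le_ne_top ENNReal.ofReal_ne_top h1) hc h1
  rw [← ENNReal.ofReal_add (by positivity) (by positivity), add_halves] at this
  exact absurd (h3.trans_lt this) (lt_irrefl _)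

lemma exists_chain {α : Type*} (good : α → Prop) (rel : α → α → Prop)
    (hsymm : ∀ a b, rel a b → rel b a) (L : ℕ)
    (step : ∀ P : Finset α, P.card < L → ∃ c, good c ∧ c ∉ P ∧ ∀ q ∈ P, rel c q) :
    ∃ P : Finset α, P.card = L ∧ (∀ q ∈ P, good q) ∧ ∀ a ∈ P, ∀ b ∈ P, a ≠ b → rel a b := by
  suffices h : ∀ m, m ≤ L → ∃ P : Finset α, P.card = m ∧ (∀ q ∈ P, good q) ∧
      ∀ a ∈ P, ∀ b ∈ P, a ≠ b → rel a b from h L le_rfl
  intro m
  induction m with
  | zero => exact fun _ => ⟨∅, by simp⟩
  | succ m ih =>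
    intro hm
    obtain ⟨P, hc, hg, hr⟩ := ih (by omega)
    obtain ⟨c, hgc, hcP, hrc⟩ := step P (by omega)
    refine ⟨insert c P, by rw [Finset.card_insert_of_notMem hcP, hc], ?_, ?_⟩
    · intro q hq
      rcases Finset.mem_insert.1 hq with h | h
      · rw [h]; exact hgc
      · exact hg q h
    · intro a ha b hb hab
      rcases Finset.mem_insert.1 ha with h1 | h1 <;> rcases Finset.mem_insert.1 hb with h2 | h2
      · exact absurd (h1.trans h2.symm) hab
      · rw [h1]; exact hrc b h2
      · rw [h2]; exact hsymm _ _ (hrc a h1)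
      · exact hr a h1 b h2 hab

/-- Points too close to an earlier point `q`, modulo differences of translates. -/
def forbid (Z : Finset (Euc n)) (P : Finset (Euc n)) (r : ℝ) : Set (Euc n) :=
  ⋃ t ∈ P ×ˢ (Z ×ˢ Z), ball (t.1 - t.2.2 + t.2.1) r

lemma vol_forbid_le (Z P : Finset (Euc n)) {r : ℝ} (hr : 0 < r) {L M : ℕ} (hP : P.card ≤ L)
    (hZ : Z.card ≤ M) :
    volume (forbid Z P r) ≤ ENNReal.ofReal ((L : ℝ) * (M : ℝ) ^ 2 * (r ^ n * om n)) := by
  refine (measure_biUnion_finset_le _ _).trans ?_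
  simp only [vol_ball _ hr, Finset.sum_const, Finset.card_product, nsmul_eq_mul]
  rw [← ENNReal.ofReal_natCast, ← ENNReal.ofReal_mul (Nat.cast_nonneg _)]
  refine ENNReal.ofReal_le_ofReal (mul_le_mul_of_nonneg_right ?_
    (mul_nonneg (pow_nonneg hr.le _) om_pos.le))
  rw [sq]; push_cast
  have h1 : (P.card : ℝ) ≤ L := by exact_mod_cast hP
  have h2 : (Z.card : ℝ) ≤ M := by exact_mod_cast hZ
  gcongr

lemma sep_of_not_forbid {Z P : Finset (Euc n)} {r : ℝ} {c : Euc n} (hc : c ∉ forbid Z P r) :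
    ∀ q ∈ P, ∀ z ∈ Z, ∀ w ∈ Z, r ≤ ‖(c - z) - (q - w)‖ := by
  intro q hq z hz w hw
  by_contra hlt
  push Not at hlt
  apply hc
  simp only [forbid, Set.mem_iUnion]
  refine ⟨(q, (z, w)), by simp [hq, hz, hw], ?_⟩
  rw [mem_ball, dist_eq_norm]
  show ‖c - (q - w + z)‖ < r
  rwa [show c - (q - w + z) = c - z - (q - w) by abel]

/-- The event that the unit ball is covered by the translates in `Z`. -/
def Cov (d : ℝ) (Z : Finset (Euc n)) (S : Finset (Fin n → ℤ)) : Prop :=
  ∀ y ∈ closedBall (0 : Euc n) 1, ∃ z ∈ Z, ‖y - z‖ ≤ 1 ∧ ∀ a ∈ S, a ∉ cap d (y - z)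

lemma exists_centres (hk : 0 < k) {Z : Finset (Euc n)} (hne : Z.Nonempty) {L M : ℕ}
    (hZ : Z.card ≤ M)
    (hI : ∫⁻ y in closedBall (0 : Euc n) 1, ∑ z ∈ Z, wt n x (y - z)
      ≤ ENNReal.ofReal (k / 2 * om n))
    (hL : (L : ℝ) * (M : ℝ) ^ 2 * 8 ≤ 25 ^ n) :
    ∃ P : Finset (Euc n), P.card = L ∧
      (∀ c ∈ P, ENNReal.ofReal ((1 / 101) ^ n * om n / 4) ≤
        volume (goodSet n x k Z ∩ ball c (1 / 100))) ∧
      ∀ c ∈ P, ∀ c' ∈ P, c ≠ c' → ∀ z ∈ Z, ∀ w ∈ Z, 1 / 25 ≤ ‖(c - z) - (c' - w)‖ := by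
  set A := goodSet n x k Z
  have hom := om_pos (n := n)
  refine exists_chain _ _ (fun a b h z hz w hw => by
    rw [← norm_neg, show -(b - z - (a - w)) = a - w - (b - z) by abel]; exact h w hw z hz) L
    fun P hP => ?_
  set F := forbid Z P (1 / 25) with hF
  set E : Set (Euc n × Euc n) := {t | t.2 ∈ A ∧ dist t.2 t.1 < 1 / 100} with hE
  have hEm : MeasurableSet E :=
    (measurable_snd (measurableSet_goodSet Z)).inter
      (isOpen_lt (continuous_snd.dist continuous_fst) continuous_const).measurableSet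
  have hsl : ∀ c : Euc n, volume (Prod.mk c ⁻¹' E) = volume (A ∩ ball c (1 / 100)) := by
    intro c; congr 1
  have htot : ∫⁻ c, volume (A ∩ ball c (1 / 100)) =
      volume A * ENNReal.ofReal ((1 / 100) ^ n * om n) := by
    rw [← lintegral_congr hsl, ← Measure.prod_apply hEm, Measure.prod_apply_symm hEm]
    rw [show volume A * ENNReal.ofReal ((1 / 100) ^ n * om n)
      = ∫⁻ y, A.indicator (fun _ => ENNReal.ofReal ((1 / 100) ^ n * om n)) y by
        rw [lintegral_indicator (measurableSet_goodSet Z), setLIntegral_const, mul_comm]]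
    refine lintegral_congr fun y => ?_
    by_cases hy : y ∈ A
    · rw [Set.indicator_of_mem hy, ← vol_ball y (by norm_num)]
      congr 1; ext c; simp [hE, hy, mem_ball, dist_comm]
    · rw [Set.indicator_of_notMem hy, ← nonpos_iff_eq_zero, ← measure_empty (μ := (volume : Measure (Euc n)))]
      exact measure_mono fun c hc => absurd hc.1 hy
  by_contra hc
  push Not at hc
  set thr := (1 / 101 : ℝ) ^ n * om n / 4
  set ib := (1 / 100 : ℝ) ^ n * om n with hib
  have hibp : 0 < ib := by positivity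
  have hout : ∀ c ∉ F, volume (A ∩ ball c (1 / 100)) ≤ ENNReal.ofReal thr := by
    intro c hcF
    by_contra hlt
    push Not at hlt
    have hcP : c ∉ P := by
      intro hcP
      obtain ⟨z, hz⟩ := hne
      have := sep_of_not_forbid hcF c hcP z hz z hz
      rw [sub_self, norm_zero] at this
      norm_num at this
    obtain ⟨q, hq, z, hz, w, hw, hlt'⟩ := hc c hlt.le hcP
    exact absurd (sep_of_not_forbid hcF q hq z hz w hw) (not_le.2 hlt')
  have hpt : ∀ c, volume (A ∩ ball c (1 / 100)) ≤ F.indicator (fun _ => ENNReal.ofReal ib) c +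
      (closedBall (0 : Euc n) (101 / 100)).indicator (fun _ => ENNReal.ofReal thr) c := by
    intro c
    by_cases hcF : c ∈ F
    · rw [Set.indicator_of_mem hcF]
      refine le_trans ?_ le_self_add
      refine (measure_mono Set.inter_subset_right).trans (le_of_eq ?_)
      rw [vol_ball c (by norm_num)]
    · by_cases hcB : c ∈ closedBall (0 : Euc n) (101 / 100)
      · rw [Set.indicator_of_mem hcB]; exact le_trans (hout c hcF) le_add_self
      · have : A ∩ ball c (1 / 100) = ∅ := by
          rw [Set.eq_empty_iff_forall_notMem]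
          rintro y ⟨hy, hyc⟩
          apply hcB
          rw [mem_closedBall]
          have h1 : dist y 0 ≤ 1 := hy.1
          rw [mem_ball, dist_comm] at hyc
          linarith [dist_triangle c y 0]
        rw [this, measure_empty]; exact bot_le
  have hFm : MeasurableSet F :=
    Finset.measurableSet_biUnion _ fun _ _ => measurableSet_ball
  have h1 := lintegral_mono (μ := (volume : Measure (Euc n))) hpt
  rw [htot, lintegral_add_left (measurable_const.indicator hFm), lintegral_indicator hFm,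
    lintegral_indicator measurableSet_closedBall, setLIntegral_const, setLIntegral_const,
    vol_closedBall _ (by norm_num)] at h1
  have hvF : volume F ≤ ENNReal.ofReal (om n / 8) := by
    refine (vol_forbid_le Z P (by norm_num) hP.le hZ).trans (ENNReal.ofReal_le_ofReal ?_)
    rw [one_div_pow, ← mul_assoc, mul_one_div, le_div_iff₀ (by norm_num : (0:ℝ) < 8),
      div_mul_eq_mul_div, div_mul_eq_mul_div, div_le_iff₀ (by positivity)]
    have := mul_le_mul_of_nonneg_left hL hom.le
    linarith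
  have h2 : ENNReal.ofReal (om n / 2 * ib) ≤
      ENNReal.ofReal (ib * (om n / 8) + thr * ((101 / 100) ^ n * om n)) := by
    rw [ENNReal.ofReal_add (by positivity) (by positivity), ENNReal.ofReal_mul (by positivity),
      ENNReal.ofReal_mul hibp.le, ENNReal.ofReal_mul (show (0:ℝ) ≤ thr by positivity)]
    exact (mul_le_mul_left (vol_goodSet hk hI) _).trans
      (h1.trans (add_le_add (mul_le_mul_right hvF _) le_rfl))
  rw [ENNReal.ofReal_le_ofReal_iff (by positivity)] at h2
  have h3 : thr * ((101 / 100) ^ n * om n) = ib * om n / 4 := by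
    have : (1 / 101 : ℝ) ^ n * (101 / 100) ^ n = (1 / 100) ^ n := by
      rw [← mul_pow]; norm_num
    calc thr * ((101 / 100) ^ n * om n)
        = ((1 / 101 : ℝ) ^ n * (101 / 100) ^ n) * om n * om n / 4 := by ring
      _ = _ := by rw [this]
  rw [h3] at h2
  nlinarith [mul_pos hibp hom]

lemma exists_points (h : Small n x d) {Z : Finset (Euc n)} (hne : Z.Nonempty) {T M : ℕ}
    (hZ : Z.card ≤ M) {c : Euc n}
    (hc : ENNReal.ofReal ((1 / 101) ^ n * om n / 4) ≤
      volume (goodSet n x k Z ∩ ball c (1 / 100)))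
    (hT : (T : ℝ) * (M : ℝ) ^ 2 * 4 * 101 ^ n < x ^ n) :
    ∃ P : Finset (Euc n), P.card = T ∧
      (∀ y ∈ P, y ∈ goodSet n x k Z ∩ ball c (1 / 100)) ∧
      ∀ y ∈ P, ∀ y' ∈ P, y ≠ y' → ∀ z ∈ Z, ∀ w ∈ Z, 1 / x ≤ ‖(y - z) - (y' - w)‖ := by
  have hx := h.xpos
  have hom := om_pos (n := n)
  refine exists_chain _ _ (fun a b h z hz w hw => by
    rw [← norm_neg, show -(b - z - (a - w)) = a - w - (b - z) by abel]; exact h w hw z hz) T
    fun P hP => ?_
  have hlt : volume (forbid Z P (1 / x)) < volume (goodSet n x k Z ∩ ball c (1 / 100)) := by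
    refine lt_of_lt_of_le ((vol_forbid_le Z P (by positivity) hP.le hZ).trans_lt ?_) hc
    rw [ENNReal.ofReal_lt_ofReal_iff (by positivity), one_div_pow, one_div_pow]
    have hxn : 0 < x ^ n := by positivity
    rw [show (T : ℝ) * (M : ℝ) ^ 2 * (1 / x ^ n * om n) = (T : ℝ) * (M : ℝ) ^ 2 * om n / x ^ n by ring,
      show 1 / (101 : ℝ) ^ n * om n / 4 = om n / (101 ^ n * 4) by ring,
      div_lt_div_iff₀ hxn (by positivity)]
    nlinarith [mul_lt_mul_of_pos_left hT hom]
  obtain ⟨y, hy, hyF⟩ := Set.not_subset.1 fun hs => not_le.2 hlt (measure_mono hs)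
  refine ⟨y, hy, fun hyP => ?_, fun q hq => sep_of_not_forbid hyF q hq⟩
  obtain ⟨z, hz⟩ := hne
  have := sep_of_not_forbid hyF y hyP z hz z hz
  rw [sub_self, norm_zero] at this
  have : 0 < 1 / x := by positivity
  linarith

/-- A configuration covers the unit ball only with tiny probability. -/
theorem config_fail (h : Small n x d) (hA : Asym x k) (hk : 0 < k) (hkx : k < Real.exp (x / 2))
    {Z : Finset (Euc n)} {L T M : ℕ} (hne : Z.Nonempty) (hZ : Z.card ≤ M)
    (hI : ∫⁻ y in closedBall (0 : Euc n) 1, ∑ z ∈ Z, wt n x (y - z)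
      ≤ ENNReal.ofReal (k / 2 * om n))
    (hL : (L : ℝ) * (M : ℝ) ^ 2 * 8 ≤ 25 ^ n)
    (hT : (T : ℝ) * (M : ℝ) ^ 2 * 4 * 101 ^ n < x ^ n)
    (hTP : Real.exp (10005 * k + kap x * (k / x ^ 16)) ≤ (T : ℝ)) :
    pr (prob n d) (grid n d) (Cov d Z) ≤
      Real.exp (-((L : ℝ) * (1 / (1 + Real.exp (1 + 2 * (kap x * (k / x ^ 16))))))) := by
  have hp := (prob_pos (n := n) h.hd).le
  have hp1 := prob_le_one h
  obtain ⟨P, hPc, hPg, hPs⟩ := exists_centres hk hne hZ hI hL
  choose! Q hQc hQg hQs using fun c (hc : c ∈ P) => exists_points h hne hZ (hPg c hc) hT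
  set A : Euc n → Finset (Fin n → ℤ) → Prop := fun c S => ∃ y ∈ Q c, Ev d x Z y S
  set Rg : Euc n → Finset (Fin n → ℤ) := fun c => (Q c).biUnion fun y => region d Z y
  have htest : ∀ c ∈ P, ∀ y ∈ Q c, IsTest x k Z y := fun c hc y hy =>
    isTest_of_good h hk.le hkx (hQg c hc y hy).1
  have h1 : pr (prob n d) (grid n d) (Cov d Z) ≤
      pr (prob n d) (grid n d) (fun S => ∀ c ∈ P, ¬ A c S) := by
    refine pr_mono hp hp1 fun S _ hcov c hc => ?_
    rintro ⟨y, hy, hev⟩
    obtain ⟨z, hz, hz1, hzS⟩ := hcov y (hQg c hc y hy).1.1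
    obtain ⟨a, haS, hacap⟩ := ev_cut h (htest c hc y hy) hev (z := z) (Finset.mem_filter.2 ⟨hz, hz1⟩)
    exact hzS a haS hacap
  refine h1.trans (le_of_le_of_eq (pr_forall_not_le hp hp1 P Rg A
    (m := 1 / (1 + Real.exp (1 + 2 * (kap x * (k / x ^ 16))))) ?_ ?_ ?_) (by rw [hPc]))
  · intro c hc
    set m := Real.exp (-(10005 * k + kap x * (k / x ^ 16))) with hm
    have hTpos : (0 : ℝ) < T := lt_of_lt_of_le (Real.exp_pos _) hTP
    have hne' : (Q c).Nonempty := by
      rw [← Finset.card_pos, hQc c hc]; exact_mod_cast hTpos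
    refine le_trans ?_ (pr_exists_ge hp hp1 hne' (A := Ev d x Z) (m := m)
      (Γ := Real.exp (1 + 2 * (kap x * (k / x ^ 16)))) (Real.exp_pos _) (Real.exp_nonneg _)
      (fun y hy => ev_ge h hA (htest c hc y hy))
      (fun y hy y' hy' hne => ev_corr h hA (htest c hc y hy) (htest c hc y' hy')
        fun z hz w hw => hQs c hc y hy y' hy' hne z (Finset.mem_filter.1 hz).1 w
          (Finset.mem_filter.1 hw).1))
    rw [hQc c hc]
    have hmT : 1 ≤ m * (T : ℝ) := by
      rw [hm, Real.exp_neg, inv_mul_eq_div, le_div_iff₀ (Real.exp_pos _), one_mul]; exact hTP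
    have : 1 / (m * (T : ℝ)) ≤ 1 := by rw [div_le_one (by linarith)]; exact hmT
    gcongr
  · intro c hc S
    constructor
    · rintro ⟨y, hy, hev⟩
      refine ⟨y, hy, ?_⟩
      rw [ev_dep h (htest c hc y hy)] at hev
      have hs : S ∩ region d Z y ⊆ S ∩ Rg c :=
        Finset.inter_subset_inter subset_rfl (Finset.subset_biUnion_of_mem _ hy)
      exact ⟨hitAll_mono _ _ hs hev.1, hitAll_mono _ _ hs hev.2⟩
    · rintro ⟨y, hy, hev⟩
      exact ⟨y, hy, hitAll_mono _ _ Finset.inter_subset_left hev.1,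
        hitAll_mono _ _ Finset.inter_subset_left hev.2⟩
  · intro c hc c' hc' hcc
    simp only [Rg, Finset.disjoint_biUnion_left, Finset.disjoint_biUnion_right]
    intro y' hy' y hy
    simp only [region, Finset.disjoint_biUnion_left, Finset.disjoint_biUnion_right]
    intro z' hz' z hz
    refine cap_disjoint (near_norm hz) (near_norm hz') ?_
    have h2 := hPs c hc c' hc' hcc z (Finset.mem_filter.1 hz).1 z' (Finset.mem_filter.1 hz').1
    have h3 := mem_ball.1 (hQg c hc y hy).2
    have h4 := mem_ball.1 (hQg c' hc' y' hy').2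
    rw [dist_eq_norm] at h3 h4
    have h5 : ‖(c - z) - (c' - z')‖ ≤ ‖(y - z) - (y' - z')‖ + ‖y - c‖ + ‖y' - c'‖ := by
      rw [show (c - z) - (c' - z') = ((y - z) - (y' - z')) - (y - c) + (y' - c') by abel]
      exact (norm_add_le _ _).trans (add_le_add (norm_sub_le _ _) le_rfl)
    linarith

end Vale.Agent.P230
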