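import Mathlib

/-!
Covering densities of convex bodies by translates and by lattice translates.
-/

namespace Vale.Agent.P230

open MeasureTheory Filter
open scoped Pointwise ENNReal

/-- Euclidean space of dimension `n`. -/
abbrev Euc (n : ℕ) := EuclideanSpace ℝ (Fin n)

/-- The cube `[-R, R]^n`. -/
def cube (n : ℕ) (R : ℝ) : Set (Euc n) := {x | ∀ i, |x i| ≤ R}

/-- A compact convex set with nonempty interior. -/
def IsConvexBody {n : ℕ} (K : Set (Euc n)) : Prop :=
  Convex ℝ K ∧ IsCompact K ∧ (interior K).Nonempty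

/-- Every bounded set contains only finitely many points of `X`. -/
def IsLocallyFiniteSet {n : ℕ} (X : Set (Euc n)) : Prop :=
  ∀ s : Set (Euc n), Bornology.IsBounded s → (X ∩ s).Finite

/-- `limsup` as `R → ∞` of `#(X ∩ [-R,R]^n) / (2R)^n`. -/
noncomputable def upperDensity {n : ℕ} (X : Set (Euc n)) : ℝ≥0∞ :=
  limsup (fun R : ℝ => ((X ∩ cube n R).encard : ℝ≥0∞) / ENNReal.ofReal ((2 * R) ^ n)) atTop

/-- The translative covering density. -/
noncomputable def thetaT {n : ℕ} (K : Set (Euc n)) : ℝ≥0∞ :=
  ⨅ (X : Set (Euc n)) (_ : IsLocallyFiniteSet X) (_ : K + X = Set.univ),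
    volume K * upperDensity X

/-- The lattice covering density. -/
noncomputable def thetaL {n : ℕ} (K : Set (Euc n)) : ℝ≥0∞ :=
  ⨅ (L : Submodule ℤ (Euc n)) (_ : DiscreteTopology L) (_ : IsZLattice ℝ L)
    (_ : K + (L : Set (Euc n)) = Set.univ),
    volume K / ENNReal.ofReal (ZLattice.covolume L)

/-- The supremum of the translative covering density over all convex bodies of dimension `n`. -/
noncomputable def ThetaT (n : ℕ) : ℝ≥0∞ := ⨆ (K : Set (Euc n)) (_ : IsConvexBody K), thetaT K

/-- The supremum of the lattice covering density over all convex bodies of dimension `n`. -/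
noncomputable def ThetaL (n : ℕ) : ℝ≥0∞ := ⨆ (K : Set (Euc n)) (_ : IsConvexBody K), thetaL K

end Vale.Agent.P230
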