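import Vale.Agent.P230.Body

/-!
Averaging: a covering of small density has a sparse window. Basic facts on lattices.
-/

namespace Vale.Agent.P230

open Finset Real MeasureTheory Metric Filter
open scoped Classical ENNReal Pointwise Topology

variable {n : ℕ} {x d : ℝ}

lemma abs_apply_le_norm (v : Euc n) (i : Fin n) : |v i| ≤ ‖v‖ := by
  simpa [Real.norm_eq_abs] using PiLp.norm_apply_le v i

lemma cube_bounded (R : ℝ) : Bornology.IsBounded (cube n R) := by
  refine (isBounded_closedBall (x := (0 : Euc n)) (r := |R| * Real.sqrt n)).subset fun v hv => ?_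
  rw [mem_closedBall_zero_iff, EuclideanSpace.norm_eq]
  calc Real.sqrt _ ≤ Real.sqrt ((n : ℝ) * R ^ 2) := Real.sqrt_le_sqrt (by
        calc ∑ i, ‖v i‖ ^ 2 ≤ ∑ _i : Fin n, R ^ 2 := Finset.sum_le_sum fun i _ => by
              rw [Real.norm_eq_abs, sq_abs]
              have h1 := hv i
              rw [abs_le] at h1
              nlinarith
          _ = _ := by simp)
    _ = |R| * Real.sqrt n := by
        rw [Real.sqrt_mul (Nat.cast_nonneg n), Real.sqrt_sq_eq_abs]; ring

/-- Half-open cube used for averaging. -/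
def qbox (n : ℕ) (R : ℝ) : Set (Euc n) := box (fun _ => -R) (fun _ => R)

lemma volume_qbox {R : ℝ} (hR : 0 ≤ R) : volume (qbox n R) = ENNReal.ofReal ((2 * R) ^ n) := by
  rw [qbox, volume_box, Finset.prod_const, Finset.card_univ, Fintype.card_fin,
    ← ENNReal.ofReal_pow (by linarith), sub_neg_eq_add, two_mul]

lemma qbox_subset_cube (R : ℝ) : qbox n R ⊆ cube n R := fun _ h i =>
  abs_le.2 ⟨(h i).1, (h i).2.le⟩

theorem no_cheap_cover (h : Small n x d) {D : ℝ} (hD : 0 < D) {M : ℕ}
    (hM : 4 * D * 2 ^ n ≤ (M : ℝ)) {K : Set (Euc n)} (hK : K ⊆ closedBall 0 1)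
    (hprop : ∀ (x₀ : Euc n) (Z : Finset (Euc n)), Z.card ≤ M → (∀ z ∈ Z, ‖z - x₀‖ ≤ 2) →
        ∫⁻ y in closedBall (0 : Euc n) (1 + err n d), ∑ z ∈ Z, wt n x (y - (z - x₀))
          ≤ ENNReal.ofReal (64 * D / 2 * om n) →
        ∃ y ∈ closedBall (0 : Euc n) 1, ∀ z ∈ Z, y + x₀ - z ∉ K)
    {X : Set (Euc n)} (hX : IsLocallyFiniteSet X) (hcov : K + X = Set.univ) :
    ENNReal.ofReal (D / om n) ≤ upperDensity X := by
  by_contra hlt
  push Not at hlt
  have hom := om_pos (n := n)
  have hn := h.npos
  have hev := eventually_lt_of_limsup_lt hlt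
  rw [Filter.eventually_atTop] at hev
  obtain ⟨R0, hR0⟩ := hev
  set R := max (max R0 (6 * (n : ℝ))) 1 with hR
  have hR1 : (1 : ℝ) ≤ R := le_max_right _ _
  have hRn : 6 * (n : ℝ) ≤ R := le_trans (le_max_right _ _) (le_max_left _ _)
  have hRR0 : R0 ≤ R + 3 := by
    have : R0 ≤ R := le_trans (le_max_left _ _) (le_max_left _ _)
    linarith
  have hfin : (X ∩ cube n (R + 3)).Finite := hX _ (cube_bounded _)
  set ZR := hfin.toFinset with hZR
  have hcount : (ZR.card : ℝ) * om n ≤ 2 * D * (2 * R) ^ n := by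
    have h1 := hR0 (R + 3) hRR0
    rw [hfin.encard_eq_coe_toFinset_card, ENat.toENNReal_coe, ENNReal.div_lt_iff
      (Or.inl (by
        rw [ne_eq, ENNReal.ofReal_eq_zero, not_le]; positivity))
      (Or.inl ENNReal.ofReal_ne_top), ← ENNReal.ofReal_mul (by positivity),
      ← ENNReal.ofReal_natCast, ENNReal.ofReal_lt_ofReal_iff (by positivity)] at h1
    have h2 : (2 * (R + 3)) ^ n ≤ 2 * (2 * R) ^ n := by
      have e1 : 2 * (R + 3) ≤ 2 * R * Real.exp (3 / R) := by
        have h8 := mul_le_mul_of_nonneg_left (Real.add_one_le_exp (3 / R)) (show 0 ≤ 2 * R by positivity)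
        have h9 : 2 * R * (3 / R + 1) = 2 * (R + 3) := by field_simp; ring
        linarith
      refine (pow_le_pow_left₀ (by positivity) e1 n).trans ?_
      rw [mul_pow, ← Real.exp_nat_mul, mul_comm (2 : ℝ) ((2 * R) ^ n)]
      refine mul_le_mul_of_nonneg_left ?_ (by positivity)
      have : (n : ℝ) * (3 / R) ≤ 1 / 2 := by
        rw [mul_div_assoc', div_le_iff₀ (by positivity)]; linarith
      refine (Real.exp_le_exp.2 this).trans ?_
      have hh := Real.exp_bound' (x := 1 / 2) (by norm_num) (by norm_num) (n := 2) (by norm_num)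
      norm_num [Finset.sum_range_succ, Nat.factorial] at hh ⊢
      linarith
    rw [div_mul_eq_mul_div, lt_div_iff₀ hom] at h1
    rw [← hZR] at h1
    nlinarith [mul_le_mul_of_nonneg_left h2 hD.le]
  set W := closedBall (0 : Euc n) (1 + err n d) with hW
  set a := ENNReal.ofReal ((1 / 2) ^ n) with ha
  set b := ENNReal.ofReal (1 / (8 * om n)) with hb
  set I := fun (z x₀ : Euc n) => ∫⁻ y in W, wt n x (y - (z - x₀)) with hI
  have hIm : ∀ z, Measurable (I z) := fun z => by
    refine Measurable.lintegral_prod_right' (ν := volume.restrict W)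
      (f := fun t : Euc n × Euc n => wt n x (t.2 - (z - t.1))) ?_
    exact measurable_wt.comp (measurable_snd.sub (measurable_const.sub measurable_fst))
  set f := fun x₀ => ∑ z ∈ ZR, ((closedBall z 2).indicator (fun _ => a) x₀ + b * I z x₀) with hf
  have hfm : Measurable f := Finset.measurable_sum _ fun z _ =>
    (measurable_const.indicator measurableSet_closedBall).add ((hIm z).const_mul b)
  have hvW : volume W ≤ ENNReal.ofReal (2 * om n) := by
    rw [hW, vol_closedBall _ (by linarith [h.err_pos])]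
    refine ENNReal.ofReal_le_ofReal (mul_le_mul_of_nonneg_right ?_ hom.le)
    have h1 : 1 + err n d ≤ Real.exp (err n d) := by linarith [Real.add_one_le_exp (err n d)]
    refine (pow_le_pow_left₀ (by linarith [h.err_pos]) h1 n).trans ?_
    rw [← Real.exp_nat_mul]
    refine (Real.exp_le_exp.2 (show _ ≤ (1 / 2 : ℝ) by linarith [h.he])).trans ?_
    have hh := Real.exp_bound' (x := 1 / 2) (by norm_num) (by norm_num) (n := 2) (by norm_num)
    norm_num [Finset.sum_range_succ, Nat.factorial] at hh ⊢
    linarith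
  have hint : ∫⁻ x₀, f x₀ ≤ ENNReal.ofReal ((ZR.card : ℝ) * (2 * om n)) := by
    have hgm : ∀ z, Measurable fun x₀ => (closedBall z 2).indicator (fun _ => a) x₀ + b * I z x₀ :=
      fun z => (measurable_const.indicator measurableSet_closedBall).add ((hIm z).const_mul b)
    simp only [hf]
    rw [lintegral_finsetSum _ fun z _ => hgm z]
    refine (Finset.sum_le_card_nsmul _ _ (ENNReal.ofReal (2 * om n)) fun z _ => ?_).trans ?_
    · rw [lintegral_add_left (measurable_const.indicator measurableSet_closedBall),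
        lintegral_indicator measurableSet_closedBall, setLIntegral_const,
        lintegral_const_mul _ (hIm z), two_mul, ENNReal.ofReal_add hom.le hom.le]
      refine add_le_add ?_ ?_
      · rw [ha, vol_closedBall _ zero_le_two, ← ENNReal.ofReal_mul (by positivity)]
        refine ENNReal.ofReal_le_ofReal (le_of_eq ?_)
        rw [← mul_assoc, ← mul_pow]; norm_num
      · have e1 : ∫⁻ x₀, I z x₀ = ∫⁻ _y in W, ∫⁻ u, wt n x u := by
          rw [hI]
          rw [lintegral_lintegral_swap]
          · refine lintegral_congr fun y => ?_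
            conv_rhs => rw [← lintegral_add_right_eq_self (wt n x) (y - z)]
            refine lintegral_congr fun u => ?_
            congr 1; abel
          · exact (measurable_wt.comp
              (measurable_snd.sub (measurable_const.sub measurable_fst))).aemeasurable
        rw [e1, setLIntegral_const]
        refine (mul_le_mul_right (mul_le_mul' (lintegral_wt h) hvW) b).trans ?_
        rw [hb, ← ENNReal.ofReal_mul (by positivity), ← ENNReal.ofReal_mul (by positivity)]
        refine ENNReal.ofReal_le_ofReal (le_of_eq ?_)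
        field_simp; ring
    · rw [nsmul_eq_mul, ← ENNReal.ofReal_natCast, ← ENNReal.ofReal_mul (Nat.cast_nonneg _)]
  have hvq := volume_qbox (n := n) (R := R) (by linarith)
  obtain ⟨x₀, hx₀, hfx⟩ : ∃ x₀ ∈ qbox n R, f x₀ ≤ ENNReal.ofReal (4 * D) := by
    obtain ⟨x₀, hx₀, hle⟩ := exists_le_setLAverage (μ := volume) (s := qbox n R) (f := f)
      (by rw [hvq, ne_eq, ENNReal.ofReal_eq_zero, not_le]; positivity)
      (by rw [hvq]; exact ENNReal.ofReal_ne_top) hfm.aemeasurable
    refine ⟨x₀, hx₀, hle.trans ?_⟩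
    rw [setLAverage_eq, hvq, ENNReal.div_le_iff (by
      rw [ne_eq, ENNReal.ofReal_eq_zero, not_le]; positivity) ENNReal.ofReal_ne_top,
      ← ENNReal.ofReal_mul (by positivity)]
    refine ((setLIntegral_le_lintegral _ _).trans hint).trans (ENNReal.ofReal_le_ofReal ?_)
    linarith
  set Z := ZR.filter fun z => ‖z - x₀‖ ≤ 2 with hZ
  have hsplit : (∑ z ∈ Z, a) + b * (∑ z ∈ Z, I z x₀) ≤ ENNReal.ofReal (4 * D) := by
    refine le_trans ?_ hfx
    rw [hf, Finset.mul_sum, ← Finset.sum_add_distrib]
    refine le_trans (Finset.sum_le_sum fun z hz => ?_)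
      (Finset.sum_le_sum_of_subset (Finset.filter_subset _ _))
    rw [Set.indicator_of_mem]
    rw [mem_closedBall, dist_eq_norm, norm_sub_rev]
    exact (Finset.mem_filter.1 hz).2
  have hcard : Z.card ≤ M := by
    have h1 := le_self_add.trans hsplit
    rw [Finset.sum_const, nsmul_eq_mul, ha, ← ENNReal.ofReal_natCast,
      ← ENNReal.ofReal_mul (Nat.cast_nonneg _), ENNReal.ofReal_le_ofReal_iff (by positivity),
      one_div_pow, mul_one_div, div_le_iff₀ (by positivity)] at h1
    exact_mod_cast h1.trans hM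
  have hint2 : ∫⁻ y in W, ∑ z ∈ Z, wt n x (y - (z - x₀))
      ≤ ENNReal.ofReal (64 * D / 2 * om n) := by
    have h1 := le_add_self.trans hsplit
    have hm : ∀ c : Euc n, Measurable fun y => wt n x (y - c) := fun c =>
      measurable_wt.comp (measurable_id.sub_const c)
    rw [lintegral_finsetSum _ fun z _ => hm (z - x₀)]
    change ∑ z ∈ Z, I z x₀ ≤ _
    rw [show (64 * D / 2 * om n) = (4 * D) * (8 * om n) by ring, ENNReal.ofReal_mul (by positivity)]
    have h8 : b * ENNReal.ofReal (8 * om n) = 1 := by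
      rw [hb, ← ENNReal.ofReal_mul (by positivity), one_div_mul_cancel (by positivity),
        ENNReal.ofReal_one]
    calc ∑ z ∈ Z, I z x₀ = b * (∑ z ∈ Z, I z x₀) * ENNReal.ofReal (8 * om n) := by
          rw [mul_right_comm, h8, one_mul]
      _ ≤ _ := mul_le_mul_left h1 _
  obtain ⟨y, hy, hyK⟩ := hprop x₀ Z hcard (fun z hz => (Finset.mem_filter.1 hz).2) hint2
  have hmem : y + x₀ ∈ K + X := by rw [hcov]; trivial
  obtain ⟨k0, hk0, z, hz, hsum⟩ := Set.mem_add.1 hmem
  have hk1 : ‖k0‖ ≤ 1 := mem_closedBall_zero_iff.1 (hK hk0)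
  have hy1 : ‖y‖ ≤ 1 := mem_closedBall_zero_iff.1 hy
  have hzd : z - x₀ = y - k0 := by
    rw [sub_eq_sub_iff_add_eq_add, add_comm z, hsum]
  have hz2 : ‖z - x₀‖ ≤ 2 := by
    rw [hzd]; exact (norm_sub_le _ _).trans (by linarith)
  have hzZ : z ∈ Z := by
    refine Finset.mem_filter.2 ⟨hfin.mem_toFinset.2 ⟨hz, fun i => ?_⟩, hz2⟩
    have h1 := (abs_apply_le_norm (z - x₀) i).trans hz2
    have h2 : |x₀ i| ≤ R := qbox_subset_cube R hx₀ i
    have h3 : (z - x₀) i = z i - x₀ i := rfl
    rw [h3] at h1
    calc |z i| = |(z i - x₀ i) + x₀ i| := by rw [sub_add_cancel]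
      _ ≤ |z i - x₀ i| + |x₀ i| := abs_add_le _ _
      _ ≤ R + 3 := by linarith
  apply hyK z hzZ
  rw [← hsum, add_sub_cancel_right]
  exact hk0

lemma lattice_locFin (L : Submodule ℤ (Euc n)) [DiscreteTopology L] [IsZLattice ℝ L] :
    IsLocallyFiniteSet (L : Set (Euc n)) := by
  intro s hs
  set b := (Module.Free.chooseBasis ℤ L).ofZLatticeBasis ℝ L
  have hspan : Submodule.span ℤ (Set.range b) = L :=
    (Module.Free.chooseBasis ℤ L).ofZLatticeBasis_span ℝ
  have := ZSpan.setFinite_inter b hs
  rw [hspan] at this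
  rwa [Set.inter_comm]

lemma lattice_density (L : Submodule ℤ (Euc n)) [DiscreteTopology L] [IsZLattice ℝ L] :
    upperDensity (L : Set (Euc n)) ≤ 1 / ENNReal.ofReal (ZLattice.covolume L) := by
  set c := ZLattice.covolume L
  have hc : 0 < c := ZLattice.covolume_pos L volume
  set b := (Module.Free.chooseBasis ℤ L).ofZLatticeBasis ℝ L
  have hspan : Submodule.span ℤ (Set.range b) = L :=
    (Module.Free.chooseBasis ℤ L).ofZLatticeBasis_span ℝ
  set F := ZSpan.fundamentalDomain b with hF
  obtain ⟨C₀, hC₀⟩ := (ZSpan.fundamentalDomain_isBounded b).subset_closedBall 0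
  set C := max C₀ 0 + 1
  have hC : 0 < C := by positivity
  have hvF : volume F = ENNReal.ofReal c := by
    rw [show c = volume.real F from ZLattice.covolume_eq_measure_fundamentalDomain L volume
      (ZLattice.isAddFundamentalDomain (Module.Free.chooseBasis ℤ L) volume)]
    exact (ENNReal.ofReal_toReal (ZSpan.fundamentalDomain_isBounded b).measure_lt_top.ne).symm
  have hfinR : ∀ R, ((L : Set (Euc n)) ∩ cube n R).Finite := fun R =>
    lattice_locFin L _ (cube_bounded R)
  have hcnt : ∀ R, 0 ≤ R →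
      (((L : Set (Euc n)) ∩ cube n R).encard : ℝ≥0∞) * ENNReal.ofReal c ≤
        ENNReal.ofReal ((2 * (R + C)) ^ n) := by
    intro R hR
    set P := (hfinR R).toFinset with hP
    rw [(hfinR R).encard_eq_coe_toFinset_card, ENat.toENNReal_coe, ← volume_qbox (by linarith),
      ← nsmul_eq_mul]
    have hvol : ∀ v ∈ P, volume ((fun u => u - v) ⁻¹' F) = ENNReal.ofReal c := fun v _ => by
      simp only [sub_eq_add_neg]
      rw [measure_preimage_add_right, hvF]
    rw [← Finset.sum_const, ← hP, ← Finset.sum_congr rfl hvol, ← measure_biUnion_finset]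
    · refine measure_mono fun u hu => ?_
      obtain ⟨v, hv, hu⟩ := Set.mem_iUnion₂.1 hu
      intro i
      have h1 : |(u - v) i| ≤ max C₀ 0 :=
        (abs_apply_le_norm _ i).trans ((mem_closedBall_zero_iff.1 (hC₀ hu)).trans (le_max_left _ _))
      have h2 : |v i| ≤ R := ((hfinR R).mem_toFinset.1 hv).2 i
      have h3 : (u - v) i = u i - v i := rfl
      rw [h3, abs_le] at h1
      rw [abs_le] at h2
      constructor <;> linarith
    · intro v hv w hw hvw
      refine Set.disjoint_left.2 fun u huv huw => hvw ?_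
      have hvL : v ∈ Submodule.span ℤ (Set.range b) := hspan.symm ▸ ((hfinR R).mem_toFinset.1 hv).1
      have hwL : w ∈ Submodule.span ℤ (Set.range b) := hspan.symm ▸ ((hfinR R).mem_toFinset.1 hw).1
      have h1 : ZSpan.fract b (u - v) = u - v := ZSpan.fract_eq_self.2 huv
      have h2 : ZSpan.fract b (u - w) = u - w := ZSpan.fract_eq_self.2 huw
      have h3 : ZSpan.fract b (u - v) = ZSpan.fract b (u - w) := by
        rw [ZSpan.fract_eq_fract]
        convert sub_mem hvL hwL using 1
        abel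
      rw [h1, h2] at h3
      exact sub_right_injective h3
    · intro v _
      exact (measurable_id.sub_const v) (ZSpan.fundamentalDomain_measurableSet b)
  set g := fun R : ℝ => ENNReal.ofReal ((1 + C / R) ^ n / c)
  have hg : Tendsto g atTop (𝓝 (1 / ENNReal.ofReal c)) := by
    rw [← ENNReal.ofReal_one, ← ENNReal.ofReal_div_of_pos hc]
    refine ENNReal.tendsto_ofReal ?_
    have h1 : Tendsto (fun R : ℝ => C / R) atTop (𝓝 0) := tendsto_const_nhds.div_atTop tendsto_id
    simpa using ((h1.const_add 1).pow n).div_const c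
  rw [← hg.limsup_eq]
  refine limsup_le_limsup ?_
  filter_upwards [eventually_gt_atTop (0 : ℝ)] with R hR
  have h1 := hcnt R hR.le
  rw [ENNReal.div_le_iff (by rw [ne_eq, ENNReal.ofReal_eq_zero, not_le]; positivity)
    ENNReal.ofReal_ne_top, ← ENNReal.ofReal_mul (by positivity)]
  rw [← ENNReal.le_div_iff_mul_le (Or.inl (by rwa [ne_eq, ENNReal.ofReal_eq_zero, not_le]))
    (Or.inl ENNReal.ofReal_ne_top), ← ENNReal.ofReal_div_of_pos hc] at h1
  refine h1.trans (le_of_eq ?_)
  congr 1
  rw [div_mul_eq_mul_div, ← mul_pow]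
  congr 2
  field_simp

lemma thetaT_le_thetaL (K : Set (Euc n)) : thetaT K ≤ thetaL K := by
  simp only [thetaL, le_iInf_iff]
  intro L hd hz hcov
  have h1 : thetaT K ≤ volume K * upperDensity (L : Set (Euc n)) :=
    iInf_le_of_le (L : Set (Euc n)) (iInf_le_of_le (lattice_locFin L) (iInf_le_of_le hcov le_rfl))
  refine h1.trans ?_
  rw [div_eq_mul_inv]
  refine mul_le_mul_right ((lattice_density L).trans ?_) _
  rw [one_div]

lemma thetaL_lt_top {K : Set (Euc n)} (hK : IsConvexBody K) : thetaL K < ⊤ := by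
  obtain ⟨-, hcpt, p, hp⟩ := hK
  obtain ⟨r, hr, hball⟩ := Metric.isOpen_iff.1 isOpen_interior p hp
  set s : ℝ := r / (n + 1) with hs
  have hsp : 0 < s := by positivity
  set b := ((EuclideanSpace.basisFun (Fin n) ℝ).toBasis).isUnitSMul
    (w := fun _ => s) (fun _ => IsUnit.mk0 s hsp.ne')
  set L := Submodule.span ℤ (Set.range b)
  have hcov : K + (L : Set (Euc n)) = Set.univ := by
    refine Set.eq_univ_of_forall fun y => ?_
    refine Set.mem_add.2 ⟨p + ZSpan.fract b (y - p), interior_subset (hball ?_),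
      (ZSpan.floor b (y - p) : Euc n), (ZSpan.floor b (y - p)).2, ?_⟩
    · rw [mem_ball, dist_eq_norm, add_sub_cancel_left]
      refine lt_of_le_of_lt (ZSpan.norm_fract_le b _) ?_
      have : ∀ i, ‖b i‖ = s := fun i => by
        simp [b, Module.Basis.isUnitSMul_apply, norm_smul, abs_of_pos hsp]
      simp only [this, Finset.sum_const, Finset.card_univ, Fintype.card_fin, nsmul_eq_mul]
      rw [hs, mul_div_assoc', div_lt_iff₀ (by positivity)]
      nlinarith
    · rw [ZSpan.fract_apply]; abel
  refine lt_of_le_of_lt (iInf_le_of_le L (iInf_le_of_le (inferInstance)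
    (iInf_le_of_le (inferInstance) (iInf_le_of_le hcov le_rfl)))) ?_
  refine ENNReal.div_lt_top hcpt.measure_lt_top.ne ?_
  rw [ne_eq, ENNReal.ofReal_eq_zero, not_le]
  exact ZLattice.covolume_pos L volume

end Vale.Agent.P230
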