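import Vale.Agent.P230.Defs

/-!
Counting points of a fine cubic grid in Euclidean balls.
-/

namespace Vale.Agent.P230

open MeasureTheory Metric Finset
open scoped ENNReal

variable {n : ℕ}

/-- Volume of the unit ball. -/
noncomputable def om (n : ℕ) : ℝ := (volume (ball (0 : Euc n) 1)).toReal

lemma om_pos : 0 < om n :=
  ENNReal.toReal_pos (measure_ball_pos volume _ one_pos).ne' measure_ball_lt_top.ne

lemma volume_ball_one : volume (ball (0 : Euc n) 1) = ENNReal.ofReal (om n) :=
  (ENNReal.ofReal_toReal measure_ball_lt_top.ne).symm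

lemma vol_ball (c : Euc n) {r : ℝ} (hr : 0 < r) :
    volume (ball c r) = ENNReal.ofReal (r ^ n * om n) := by
  rw [Measure.addHaar_ball_of_pos volume c hr, volume_ball_one, ← ENNReal.ofReal_mul (by positivity)]
  simp

lemma vol_closedBall (c : Euc n) {r : ℝ} (hr : 0 ≤ r) :
    volume (closedBall c r) = ENNReal.ofReal (r ^ n * om n) := by
  rw [Measure.addHaar_closedBall volume c hr, volume_ball_one,
    ← ENNReal.ofReal_mul (by positivity)]
  simp

/-- Half-open box. -/
def box (a b : Fin n → ℝ) : Set (Euc n) := {x | ∀ i, a i ≤ x i ∧ x i < b i}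

lemma box_eq (a b : Fin n → ℝ) :
    box a b = WithLp.ofLp ⁻¹' (Set.pi Set.univ fun i => Set.Ico (a i) (b i)) := by
  ext x; simp [box, forall_and]

lemma measurableSet_box (a b : Fin n → ℝ) : MeasurableSet (box a b) := by
  rw [box_eq]
  exact (PiLp.volume_preserving_ofLp (Fin n)).measurable
    (MeasurableSet.univ_pi fun i => measurableSet_Ico)

lemma volume_box (a b : Fin n → ℝ) :
    volume (box a b) = ∏ i, ENNReal.ofReal (b i - a i) := by
  rw [box_eq, (PiLp.volume_preserving_ofLp (Fin n)).measure_preimage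
    (MeasurableSet.univ_pi fun i => measurableSet_Ico).nullMeasurableSet, Real.volume_pi_Ico]

/-- Grid point with integer label `v` and mesh `d`. -/
noncomputable def pt (d : ℝ) (v : Fin n → ℤ) : Euc n := WithLp.toLp 2 fun i => d * v i

/-- Label of the cell containing `x`. -/
noncomputable def rnd (d : ℝ) (x : Euc n) : Fin n → ℤ := fun i => ⌊x i / d⌋

noncomputable def cell (d : ℝ) (v : Fin n → ℤ) : Set (Euc n) :=
  box (fun i => d * v i) (fun i => d * (v i + 1))

lemma mem_cell_rnd {d : ℝ} (hd : 0 < d) (x : Euc n) : x ∈ cell d (rnd d x) := by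
  intro i
  simp only [rnd]
  have h1 := Int.floor_le (x i / d)
  have h2 := Int.lt_floor_add_one (x i / d)
  rw [le_div_iff₀ hd] at h1
  rw [div_lt_iff₀ hd] at h2
  constructor <;> nlinarith

lemma rnd_eq_of_mem {d : ℝ} (hd : 0 < d) {x : Euc n} {v : Fin n → ℤ} (h : x ∈ cell d v) :
    rnd d x = v := by
  funext i
  obtain ⟨h1, h2⟩ := h i
  simp only [rnd]
  rw [Int.floor_eq_iff, le_div_iff₀ hd, div_lt_iff₀ hd]
  constructor <;> nlinarith

lemma volume_cell {d : ℝ} (hd : 0 < d) (v : Fin n → ℤ) :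
    volume (cell d v) = ENNReal.ofReal (d ^ n) := by
  rw [cell, volume_box]
  simp [mul_add, ENNReal.ofReal_pow hd.le]

lemma norm_sub_pt_le {d : ℝ} (hd : 0 < d) {x : Euc n} {v : Fin n → ℤ} (h : x ∈ cell d v) :
    ‖x - pt d v‖ ≤ d * Real.sqrt n := by
  rw [EuclideanSpace.norm_eq]
  have : ∑ i, ‖(x - pt d v) i‖ ^ 2 ≤ (n : ℝ) * d ^ 2 := by
    calc ∑ i, ‖(x - pt d v) i‖ ^ 2 ≤ ∑ _i : Fin n, d ^ 2 := by
          refine Finset.sum_le_sum fun i _ => ?_
          obtain ⟨h1, h2⟩ := h i
          have : (x - pt d v) i = x i - d * v i := rfl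
          rw [this, Real.norm_eq_abs, sq_abs]
          nlinarith
      _ = _ := by simp
  calc Real.sqrt _ ≤ Real.sqrt ((n : ℝ) * d ^ 2) := Real.sqrt_le_sqrt this
    _ = d * Real.sqrt n := by rw [Real.sqrt_mul (Nat.cast_nonneg n), Real.sqrt_sq hd.le]; ring

/-- Grid labels whose points lie in the open ball of radius 4. -/
noncomputable def grid (n : ℕ) (d : ℝ) : Finset (Fin n → ℤ) :=
  (Fintype.piFinset fun _ : Fin n => Finset.Icc (-⌈4 / d⌉) ⌈4 / d⌉).filter fun v => ‖pt d v‖ < 4

lemma mem_grid {d : ℝ} (hd : 0 < d) {v : Fin n → ℤ} : v ∈ grid n d ↔ ‖pt d v‖ < 4 := by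
  simp only [grid, Finset.mem_filter, Fintype.mem_piFinset, Finset.mem_Icc, and_iff_right_iff_imp]
  intro h i
  have h1 : |d * (v i : ℝ)| ≤ ‖pt d v‖ := by
    simpa [Real.norm_eq_abs, pt] using PiLp.norm_apply_le (pt d v) i
  rw [abs_mul, abs_of_pos hd] at h1
  have h2 : |(v i : ℝ)| ≤ 4 / d := by rw [le_div_iff₀ hd]; linarith
  have h3 := h2.trans (Int.le_ceil _)
  rw [abs_le] at h3
  exact ⟨by exact_mod_cast h3.1, by exact_mod_cast h3.2⟩

/-- Grid points in the open ball about `c` of radius `r`. -/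
noncomputable def gridBall (d : ℝ) (c : Euc n) (r : ℝ) : Finset (Fin n → ℤ) :=
  (grid n d).filter fun v => ‖pt d v - c‖ < r

lemma card_gridBall_le {d : ℝ} (hd : 0 < d) (c : Euc n) {r : ℝ} (hr : 0 ≤ r) :
    ((gridBall d c r).card : ℝ) * d ^ n ≤ (r + d * Real.sqrt n) ^ n * om n := by
  have hsub : (⋃ v ∈ gridBall d c r, cell d v) ⊆ closedBall c (r + d * Real.sqrt n) := by
    intro x hx
    simp only [Set.mem_iUnion] at hx
    obtain ⟨v, hv, hx⟩ := hx
    have h1 := (Finset.mem_filter.1 hv).2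
    have h2 := norm_sub_pt_le hd hx
    rw [mem_closedBall, dist_eq_norm]
    calc ‖x - c‖ = ‖(x - pt d v) + (pt d v - c)‖ := by rw [sub_add_sub_cancel]
      _ ≤ _ := by have := norm_add_le (x - pt d v) (pt d v - c); linarith
  have hv : volume (⋃ v ∈ gridBall d c r, cell d v) =
      ∑ v ∈ gridBall d c r, volume (cell d v) := by
    refine measure_biUnion_finset ?_ (fun v _ => measurableSet_box _ _)
    intro v _ w _ hvw
    exact Set.disjoint_left.2 fun x hxv hxw =>
      hvw ((rnd_eq_of_mem hd hxv).symm.trans (rnd_eq_of_mem hd hxw))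
  have h := measure_mono (μ := volume) hsub
  rw [hv, vol_closedBall c (by positivity)] at h
  simp only [volume_cell hd, Finset.sum_const, nsmul_eq_mul] at h
  have hnn : 0 ≤ (r + d * Real.sqrt n) ^ n * om n := mul_nonneg (by positivity) om_pos.le
  rw [← ENNReal.ofReal_natCast, ← ENNReal.ofReal_mul (Nat.cast_nonneg _),
    ENNReal.ofReal_le_ofReal_iff hnn] at h
  exact h

lemma le_card_gridBall {d : ℝ} (hd : 0 < d) (c : Euc n) {r : ℝ} (hr : d * Real.sqrt n < r)
    (hc : ‖c‖ + r ≤ 4) :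
    (r - d * Real.sqrt n) ^ n * om n ≤ ((gridBall d c r).card : ℝ) * d ^ n := by
  have hsub : ball c (r - d * Real.sqrt n) ⊆ ⋃ v ∈ gridBall d c r, cell d v := by
    intro x hx
    rw [mem_ball, dist_eq_norm] at hx
    have h2 := norm_sub_pt_le hd (mem_cell_rnd hd x)
    have h3 : ‖pt d (rnd d x) - c‖ < r := by
      calc ‖pt d (rnd d x) - c‖ = ‖(x - c) - (x - pt d (rnd d x))‖ := by congr 1; abel
        _ ≤ ‖x - c‖ + ‖x - pt d (rnd d x)‖ := norm_sub_le _ _
        _ < r := by linarith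
    have h4 : ‖pt d (rnd d x)‖ < 4 := by
      have : ‖pt d (rnd d x)‖ ≤ ‖c‖ + ‖pt d (rnd d x) - c‖ := norm_le_insert' _ _
      linarith
    exact Set.mem_iUnion₂.2 ⟨rnd d x, Finset.mem_filter.2 ⟨(mem_grid hd).2 h4, h3⟩,
      mem_cell_rnd hd x⟩
  have h := (measure_mono (μ := volume) hsub).trans (measure_biUnion_finset_le _ _)
  rw [vol_ball c (by linarith)] at h
  simp only [volume_cell hd, Finset.sum_const, nsmul_eq_mul] at h
  rw [← ENNReal.ofReal_natCast, ← ENNReal.ofReal_mul (Nat.cast_nonneg _),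
    ENNReal.ofReal_le_ofReal_iff (by positivity)] at h
  exact h

lemma om_ge : (2 / Real.sqrt (n + 1)) ^ n ≤ om n := by
  set s : ℝ := 1 / Real.sqrt (n + 1) with hs
  have hsp : 0 < s := by positivity
  have hsub : box (n := n) (fun _ => -s) (fun _ => s) ⊆ ball (0 : Euc n) 1 := by
    intro x hx
    rw [mem_ball, dist_zero_right, EuclideanSpace.norm_eq]
    have : ∑ i, ‖x i‖ ^ 2 ≤ (n : ℝ) * s ^ 2 := by
      calc ∑ i, ‖x i‖ ^ 2 ≤ ∑ _i : Fin n, s ^ 2 := by
            refine Finset.sum_le_sum fun i _ => ?_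
            obtain ⟨h1, h2⟩ := hx i
            rw [Real.norm_eq_abs, sq_abs]; nlinarith
        _ = _ := by simp
    rw [Real.sqrt_lt' one_pos]
    refine this.trans_lt ?_
    rw [hs, div_pow, one_pow, Real.sq_sqrt (by positivity), mul_one_div, div_lt_one (by positivity)]
    linarith
  have h := measure_mono (μ := volume) hsub
  rw [volume_box, volume_ball_one] at h
  simp only [Finset.prod_const, Finset.card_univ, Fintype.card_fin] at h
  rw [← ENNReal.ofReal_pow (by linarith), ENNReal.ofReal_le_ofReal_iff om_pos.le] at h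
  convert h using 2
  rw [hs]; ring

lemma om_le : om n ≤ 3 ^ n := by
  have hsub : ball (0 : Euc n) 1 ⊆ box (fun _ => -(3/2)) (fun _ => 3/2) := by
    intro x hx i
    rw [mem_ball, dist_zero_right] at hx
    have h1 : |x i| < 1 :=
      lt_of_le_of_lt (by simpa [Real.norm_eq_abs] using PiLp.norm_apply_le x i) hx
    rw [abs_lt] at h1
    constructor <;> linarith
  have h := measure_mono (μ := volume) hsub
  rw [volume_box, volume_ball_one] at h
  simp only [Finset.prod_const, Finset.card_univ, Fintype.card_fin] at h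
  rw [← ENNReal.ofReal_pow (by norm_num), ENNReal.ofReal_le_ofReal_iff (by norm_num)] at h
  norm_num at h
  exact h

end Vale.Agent.P230
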