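import Vale.Agent.P230.Density

/-!
Asymptotic choice of parameters: the covering density of some body is at least of order n log n.
-/

namespace Vale.Agent.P230

open Finset Real MeasureTheory Metric Filter
open scoped Classical ENNReal Topology

lemma log_le_two_sqrt {x : ℝ} (hx : 0 < x) : Real.log x ≤ 2 * Real.sqrt x := by
  have h1 := Real.log_le_sub_one_of_pos (Real.sqrt_pos.2 hx)
  rw [Real.log_sqrt hx.le] at h1
  linarith [Real.sqrt_nonneg x]

lemma asym_of {x k l : ℝ} (hx : 100000000 ≤ x) (hlx : l ≤ x) (hk0 : 0 < k)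
    (hkx40 : k ≤ Real.exp (40 * l)) : Asym x k := by
  have hx0 : 0 < x := by linarith
  refine ⟨hk0.le, ?_, ?_⟩
  · calc k * Real.exp (1 - 1250 * x ^ 10)
        ≤ Real.exp (40 * x) * Real.exp (1 - 1250 * x ^ 10) := by
          refine mul_le_mul_of_nonneg_right (hkx40.trans ?_) (Real.exp_nonneg _)
          exact Real.exp_le_exp.2 (by linarith)
      _ ≤ _ := by
          rw [← Real.exp_add, Real.exp_le_exp]
          have : x * 100000000 ≤ x ^ 10 := by
            calc x * 100000000 ≤ x * x := by nlinarith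
              _ = x ^ 2 := by ring
              _ ≤ _ := pow_le_pow_right₀ (by linarith) (by norm_num)
          linarith
  · have h1 : k ^ 2 ≤ Real.exp (80 * x) := by
      calc k ^ 2 ≤ Real.exp (40 * l) ^ 2 := pow_le_pow_left₀ hk0.le hkx40 2
        _ = Real.exp (80 * l) := by rw [← Real.exp_nat_mul]; ring_nf
        _ ≤ _ := Real.exp_le_exp.2 (by linarith)
    have h2 : (lim x : ℝ) ≤ 3 * x ^ 16 := by
      have := Nat.ceil_lt_add_one (show 0 ≤ 2 * x ^ 16 + 2 by positivity)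
      have : (100 : ℝ) ≤ x ^ 16 := by
        calc (100 : ℝ) ≤ x := by linarith
          _ ≤ _ := le_self_pow₀ (by linarith) (by norm_num)
      rw [lim]; linarith
    calc k ^ 2 * Real.exp (1 - 1250 * x ^ 18) * Real.exp ((lim x : ℝ) * 2 * (10000 * x + 5))
        ≤ Real.exp (80 * x) * Real.exp (1 - 1250 * x ^ 18) *
            Real.exp (3 * x ^ 16 * 2 * (10005 * x)) := by
          refine mul_le_mul (mul_le_mul_of_nonneg_right h1 (Real.exp_nonneg _))
            (Real.exp_le_exp.2 ?_) (Real.exp_nonneg _) (by positivity)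
          refine mul_le_mul (by linarith) (by linarith) (by positivity) (by positivity)
      _ ≤ 1 := by
          rw [← Real.exp_add, ← Real.exp_add, Real.exp_le_one_iff]
          have h3 : x ^ 17 * 100000000 ≤ x ^ 18 := by
            rw [pow_succ x 17]; exact mul_le_mul_of_nonneg_left hx (by positivity)
          have h4 : x ≤ x ^ 17 := le_self_pow₀ (by linarith) (by norm_num)
          have h5 : x ^ 16 * x = x ^ 17 := by ring
          nlinarith

lemma T_cond {n : ℕ} {x N l : ℝ} {T M : ℕ} (hN : N = (n : ℝ)) (hN0 : 0 < N) (hn1 : n ≠ 0)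
    (hx0 : 0 < x) (hl : l = Real.log x) (hlog : Real.log 51712 < 3 / 4 * l)
    (hT2 : (T : ℝ) ≤ 2 * Real.exp (N * l / 4)) (hMsq : (M : ℝ) ^ 2 ≤ N ^ 4 * 4 ^ n) :
    (T : ℝ) * (M : ℝ) ^ 2 * 4 * 101 ^ n < x ^ n := by
  calc (T : ℝ) * (M : ℝ) ^ 2 * 4 * 101 ^ n
      ≤ (2 * Real.exp (N * l / 4)) * (N ^ 4 * 4 ^ n) * 4 * 101 ^ n := by gcongr
    _ = 8 * N ^ 4 * (4 : ℝ) ^ n * 101 ^ n * Real.exp (N * l / 4) := by ring
    _ ≤ 8 ^ n * 16 ^ n * 4 ^ n * 101 ^ n * Real.exp (N * l / 4) := by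
        gcongr
        · exact le_self_pow₀ (by norm_num) hn1
        · have h2 : N ≤ 2 ^ n := by rw [hN]; exact_mod_cast (Nat.lt_two_pow_self (n := n)).le
          calc N ^ 4 ≤ ((2 : ℝ) ^ n) ^ 4 := pow_le_pow_left₀ hN0.le h2 4
            _ = 16 ^ n := by rw [← pow_mul, mul_comm, pow_mul]; norm_num
    _ = Real.exp (N * Real.log 51712 + N * l / 4) := by
        rw [Real.exp_add, hN, Real.exp_nat_mul, Real.exp_log (by norm_num), ← mul_pow, ← mul_pow,
          ← mul_pow]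
        norm_num
    _ < Real.exp (N * l) := Real.exp_lt_exp.2 (by nlinarith)
    _ = x ^ n := by rw [hN, Real.exp_nat_mul, hl, Real.exp_log hx0]

lemma union_cond {n : ℕ} {N g d : ℝ} {L M : ℕ} (hN : N = (n : ℝ)) (hN1 : 1 ≤ N)
    (hd : d = 1 / (10000000 * N ^ 3)) (hg0 : 0 ≤ g) (hg2 : 2 * g ≤ 6 / 1000 * N)
    (hM2 : (M : ℝ) ≤ N ^ 2 * 2 ^ n) (hL2 : (25 : ℝ) ^ n / (N ^ 4 * 4 ^ n * 8) - 1 ≤ (L : ℝ))
    (hbig : 20000000000 * N ^ 10 ≤ 3 ^ n) :
    ((16 / d) ^ n) ^ M * Real.exp (-((L : ℝ) * (1 / (1 + Real.exp (1 + 2 * g))))) ≤ 1 / 4 := by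
  have hN0 : 0 < N := by linarith
  set m := 1 / (1 + Real.exp (1 + 2 * g)) with hm
  have hbase : 16 / d ≤ Real.exp (160000000 * N ^ 3) := by
    rw [hd, div_div_eq_mul_div, div_one]
    linarith [Real.add_one_le_exp (160000000 * N ^ 3)]
  have hmge : Real.exp (-2) * (100 / 101) ^ n ≤ m := by
    have h1 : 1 + Real.exp (1 + 2 * g) ≤ Real.exp (2 + 2 * g) := by
      rw [show 2 + 2 * g = (1 + 2 * g) + 1 by ring, Real.exp_add _ 1]
      have : 2 ≤ Real.exp (1 + 2 * g) := by linarith [Real.add_one_le_exp (1 + 2 * g)]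
      nlinarith [Real.exp_one_gt_d9]
    have h2 : Real.exp (2 * g) ≤ (101 / 100) ^ n := by
      refine (Real.exp_le_exp.2 hg2).trans ?_
      rw [mul_comm, hN, Real.exp_nat_mul]
      refine pow_le_pow_left₀ (Real.exp_nonneg _) ?_ n
      have := exp_neg_le_one_sub (v := 1 / 101) (by norm_num) (by norm_num)
      have h6 : Real.exp (6 / 1000) * (1 - 6 / 1000) ≤ 1 := by
        calc Real.exp (6 / 1000) * (1 - 6 / 1000) ≤ Real.exp (6 / 1000) * Real.exp (-(6 / 1000)) :=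
              mul_le_mul_of_nonneg_left (Real.one_sub_le_exp_neg _) (Real.exp_nonneg _)
          _ = 1 := by rw [← Real.exp_add]; simp
      linarith
    rw [hm, le_div_iff₀ (by positivity)]
    calc Real.exp (-2) * (100 / 101) ^ n * (1 + Real.exp (1 + 2 * g))
        ≤ Real.exp (-2) * (100 / 101) ^ n * (Real.exp 2 * (101 / 100) ^ n) := by
          refine mul_le_mul_of_nonneg_left (h1.trans ?_) (by positivity)
          rw [Real.exp_add]; exact mul_le_mul_of_nonneg_left h2 (Real.exp_nonneg _)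
      _ = 1 := by
          rw [mul_mul_mul_comm, ← Real.exp_add, ← mul_pow]; norm_num
  have hm0 : 0 ≤ m := by rw [hm]; positivity
  have hm1 : m ≤ 1 := by
    rw [hm, div_le_one (by positivity)]; linarith [Real.exp_pos (1 + 2 * g)]
  have hkey : 160000000 * N ^ 6 * 2 ^ n + 2 ≤ (L : ℝ) * m := by
    have he2 : (1 : ℝ) / 9 ≤ Real.exp (-2) := by
      rw [show (-2 : ℝ) = -1 + -1 by norm_num, Real.exp_add, Real.exp_neg]
      have := Real.exp_one_lt_three
      have h3 : (1 : ℝ) / 3 ≤ (Real.exp 1)⁻¹ := by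
        rw [one_div, inv_le_inv₀ (by norm_num) (Real.exp_pos _)]; linarith
      nlinarith
    have h6 : (6 : ℝ) ^ n / (72 * N ^ 4) ≤ (25 : ℝ) ^ n / (N ^ 4 * 4 ^ n * 8) * m := by
      refine le_trans ?_ (mul_le_mul_of_nonneg_left
        (le_trans (mul_le_mul_of_nonneg_right he2 (by positivity)) hmge) (by positivity))
      rw [show (25 : ℝ) ^ n / (N ^ 4 * 4 ^ n * 8) * (1 / 9 * (100 / 101) ^ n)
        = (25 / 4 * (100 / 101)) ^ n / (72 * N ^ 4) by
        rw [mul_pow, div_pow (25 : ℝ) 4 n]; ring]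
      gcongr
      norm_num
    have h7 : 160000000 * N ^ 6 * 2 ^ n + 3 ≤ (6 : ℝ) ^ n / (72 * N ^ 4) := by
      rw [le_div_iff₀ (by positivity), show (6 : ℝ) ^ n = 3 ^ n * 2 ^ n by
        rw [← mul_pow]; norm_num]
      have h8 : (1 : ℝ) ≤ 2 ^ n := one_le_pow₀ (by norm_num)
      have h9 : N ^ 4 ≤ N ^ 10 := pow_le_pow_right₀ (by linarith) (by norm_num)
      have hb2 := mul_le_mul_of_nonneg_right hbig (show (0:ℝ) ≤ 2 ^ n by positivity)
      have h10 : N ^ 4 * 1 ≤ N ^ 10 * 2 ^ n :=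
        mul_le_mul h9 h8 zero_le_one (by positivity)
      nlinarith
    nlinarith [mul_le_mul_of_nonneg_right hL2 hm0]
  calc ((16 / d) ^ n) ^ M * Real.exp (-((L : ℝ) * m))
      ≤ (Real.exp (160000000 * N ^ 3) ^ n) ^ M * Real.exp (-((L : ℝ) * m)) := by
        have : 0 ≤ 16 / d := by rw [hd]; positivity
        gcongr
    _ = Real.exp ((M : ℝ) * (N * (160000000 * N ^ 3)) - (L : ℝ) * m) := by
        rw [← Real.exp_nat_mul, ← Real.exp_nat_mul, ← Real.exp_add, hN]; ring_nf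
    _ ≤ Real.exp (-2) := by
        refine Real.exp_le_exp.2 ?_
        have : (M : ℝ) * (N * (160000000 * N ^ 3)) ≤
            N ^ 2 * 2 ^ n * (N * (160000000 * N ^ 3)) :=
          mul_le_mul_of_nonneg_right hM2 (by positivity)
        linarith
    _ ≤ 1 / 4 := by
        rw [Real.exp_neg, one_div, inv_le_inv₀ (Real.exp_pos _) (by norm_num),
          show (2 : ℝ) = 1 + 1 by norm_num, Real.exp_add]
        nlinarith [Real.exp_one_gt_d9]

lemma exists_LT {n : ℕ} {x N l k g d E : ℝ} {M : ℕ} (hN : N = (n : ℝ)) (hN1 : 1 ≤ N)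
    (hx : 100000000 ≤ x) (hl : l = Real.log x) (hl0 : 1 ≤ l)
    (hkl : k = 128 / 100000000 * (N * l)) (hgk : g ≤ k)
    (hd : d = 1 / (10000000 * N ^ 3)) (hg0 : 0 ≤ g) (hg2 : 2 * g ≤ 6 / 1000 * N)
    (hM1 : E ≤ (M : ℝ)) (hE : 0 < E)
    (hM2 : (M : ℝ) ≤ N ^ 2 * 2 ^ n) (hMsq : (M : ℝ) ^ 2 ≤ N ^ 4 * 4 ^ n)
    (hbig : 20000000000 * N ^ 10 ≤ 3 ^ n) :
    ∃ L T : ℕ, (L : ℝ) * (M : ℝ) ^ 2 * 8 ≤ 25 ^ n ∧
      (T : ℝ) * (M : ℝ) ^ 2 * 4 * 101 ^ n < x ^ n ∧
      Real.exp (10005 * k + g) ≤ (T : ℝ) ∧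
      ((16 / d) ^ n) ^ M * Real.exp (-((L : ℝ) * (1 / (1 + Real.exp (1 + 2 * g))))) ≤ 1 / 4 := by
  have hx0 : 0 < x := by linarith
  have hN0 : 0 < N := by linarith
  have hMpos : (0 : ℝ) < (M : ℝ) := by linarith
  have hn1 : n ≠ 0 := by
    intro h0
    rw [h0, Nat.cast_zero] at hN
    linarith
  refine ⟨⌊(25 : ℝ) ^ n / ((M : ℝ) ^ 2 * 8)⌋₊, ⌈Real.exp (N * l / 4)⌉₊, ?_, ?_, ?_, ?_⟩
  · have := Nat.floor_le (show (0:ℝ) ≤ (25 : ℝ) ^ n / ((M : ℝ) ^ 2 * 8) by positivity)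
    rw [le_div_iff₀ (by positivity)] at this
    linarith
  · refine T_cond hN hN0 hn1 hx0 hl ?_ ?_ hMsq
    · have h1 : Real.log (51712 ^ 4) < Real.log (x ^ 3) := by
        refine Real.log_lt_log (by norm_num) ?_
        calc (51712 : ℝ) ^ 4 < 100000000 ^ 3 := by norm_num
          _ ≤ x ^ 3 := pow_le_pow_left₀ (by norm_num) hx 3
      rw [Real.log_pow, Real.log_pow] at h1
      norm_num at h1
      linarith
    · have h1 := Nat.ceil_lt_add_one (Real.exp_nonneg (N * l / 4))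
      have h2 : 1 ≤ Real.exp (N * l / 4) :=
        Real.one_le_exp (div_nonneg (mul_nonneg hN0.le (zero_le_one.trans hl0)) (by norm_num))
      linarith
  · refine le_trans (Real.exp_le_exp.2 ?_) (Nat.le_ceil _)
    have := mul_nonneg hN0.le (zero_le_one.trans hl0)
    linarith
  · refine union_cond hN hN1 hd hg0 hg2 hM2 ?_ hbig
    have h1 := (Nat.lt_floor_add_one ((25 : ℝ) ^ n / ((M : ℝ) ^ 2 * 8))).le
    have h2 : (25 : ℝ) ^ n / (N ^ 4 * 4 ^ n * 8) ≤ 25 ^ n / ((M : ℝ) ^ 2 * 8) := by gcongr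
    linarith

lemma lower_at {n : ℕ} {x : ℝ} (hn : (n : ℝ) = x ^ 20) (hx : 100000000 ≤ x)
    (hbig : 20000000000 * (n : ℝ) ^ 10 ≤ 3 ^ n) :
    ∃ K : Set (Euc n), IsConvexBody K ∧
      ENNReal.ofReal (1 / 4000000000 * n * Real.log n) ≤ thetaT K := by
  have hx0 : 0 < x := by linarith
  set N : ℝ := (n : ℝ) with hN
  have hxN : x ≤ N := by rw [hn]; exact le_self_pow₀ (by linarith) (by norm_num)
  have hN0 : 0 < N := by linarith
  set d : ℝ := 1 / (10000000 * N ^ 3) with hd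
  have hsn : Real.sqrt N ≤ N := by
    rw [Real.sqrt_le_left hN0.le]; nlinarith
  have hS : Small n x d := by
    refine ⟨hn, by linarith, by positivity, ?_⟩
    rw [err, ← hN]
    calc N * (d * Real.sqrt N) ≤ N * (d * N) := by gcongr
      _ = 1 / (10000000 * N) := by rw [hd]; field_simp
      _ ≤ 1 / 1000000 := by
          rw [div_le_div_iff₀ (by positivity) (by norm_num)]; linarith
  set l := Real.log x with hl
  have hl0 : 1 ≤ l := by
    rw [hl, Real.le_log_iff_exp_le hx0]; linarith [Real.exp_one_lt_three]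
  have hlogN : Real.log N = 20 * l := by
    rw [hn, Real.log_pow, hl]; norm_num
  have hlN : Real.log N ≤ N := by linarith [Real.log_le_sub_one_of_pos hN0]
  have hlN1 : 1 ≤ Real.log N := by rw [hlogN]; linarith
  set D : ℝ := 1 / 1000000000 * N * Real.log N with hD
  have hD0 : 0 < D := by positivity
  set k : ℝ := 64 * D with hk
  have hk0 : 0 < k := by positivity
  have hkl : k = 128 / 100000000 * (N * l) := by rw [hk, hD, hlogN]; ring
  have hkN : k ≤ N ^ 2 := by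
    rw [hk, hD, sq]
    nlinarith [mul_le_mul_of_nonneg_left hlN hN0.le, mul_pos hN0 hN0]
  have hkx40 : k ≤ Real.exp (40 * l) := by
    refine hkN.trans (le_of_eq ?_)
    rw [hl, hn, ← pow_mul, show ((40 : ℝ) * Real.log x) = ((40 : ℕ) : ℝ) * Real.log x by norm_num,
      Real.exp_nat_mul, Real.exp_log hx0]
  have hlx : l ≤ x := by linarith [Real.log_le_sub_one_of_pos hx0]
  have hsx : 80 * Real.sqrt x < x / 2 := by
    have h1 : (10000 : ℝ) ≤ Real.sqrt x := Real.le_sqrt_of_sq_le (by linarith)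
    nlinarith [Real.mul_self_sqrt hx0.le]
  have hkx : k < Real.exp (x / 2) :=
    hkx40.trans_lt (Real.exp_lt_exp.2 (by linarith [log_le_two_sqrt hx0]))
  have hA : Asym x k := asym_of hx hlx hk0 hkx40
  set M : ℕ := ⌈4 * D * 2 ^ n⌉₊ with hM
  have hM1 : 4 * D * 2 ^ n ≤ (M : ℝ) := Nat.le_ceil _
  have hM2 : (M : ℝ) ≤ N ^ 2 * 2 ^ n := by
    have := Nat.ceil_lt_add_one (show 0 ≤ 4 * D * 2 ^ n by positivity)
    have h2 : (1 : ℝ) ≤ 2 ^ n := one_le_pow₀ (by norm_num)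
    have h3 : 4 * D + 1 ≤ N ^ 2 := by
      rw [hD, sq]; nlinarith [mul_le_mul_of_nonneg_left hlN hN0.le]
    rw [hM]
    nlinarith [mul_le_mul_of_nonneg_right h3 (show (0:ℝ) ≤ 2 ^ n by positivity)]
  have hMsq : (M : ℝ) ^ 2 ≤ N ^ 4 * 4 ^ n := by
    calc (M : ℝ) ^ 2 ≤ (N ^ 2 * 2 ^ n) ^ 2 := pow_le_pow_left₀ (Nat.cast_nonneg M) hM2 2
      _ = N ^ 4 * 4 ^ n := by
          rw [mul_pow, ← pow_mul, ← pow_mul, mul_comm n 2, pow_mul (2 : ℝ) 2 n]; norm_num
  set g := kap x * (k / x ^ 16) with hg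
  have hkap : kap x ≤ 1700 * x ^ 15 := by
    have : x * 10000 ≤ x ^ 15 := by
      calc x * 10000 ≤ x * x := by nlinarith
        _ = x ^ 2 := by ring
        _ ≤ _ := pow_le_pow_right₀ (by linarith) (by norm_num)
    rw [kap]; linarith
  have hg0 : 0 ≤ g := by
    have : 0 ≤ kap x := by rw [kap]; positivity
    positivity
  have hg1 : g ≤ 1700 * k / x := by
    calc g ≤ 1700 * x ^ 15 * (k / x ^ 16) := mul_le_mul_of_nonneg_right hkap (by positivity)
      _ = _ := by field_simp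
  have hgk : g ≤ k := hg1.trans (by rw [div_le_iff₀ hx0]; nlinarith)
  have hg2 : 2 * g ≤ 6 / 1000 * N := by
    refine le_trans (mul_le_mul_of_nonneg_left hg1 zero_le_two) ?_
    rw [mul_div_assoc', div_le_iff₀ hx0, hkl]
    nlinarith [mul_le_mul_of_nonneg_left hlx hN0.le]
  obtain ⟨L, T, hL1, hTlt, hTP, hU⟩ := exists_LT (n := n) (k := k) (g := g) (d := d)
    hN (by linarith) hx hl hl0 hkl hgk hd hg0 hg2 hM1 (by positivity) hM2 hMsq hbig
  obtain ⟨K, hKb, hK1, hKv, hKp⟩ := exists_body hS hA hk0 hkx hL1 hTlt hTP hU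
  refine ⟨K, hKb, le_iInf fun X => le_iInf fun hX => le_iInf fun hcov => ?_⟩
  have hdens := no_cheap_cover hS hD0 hM1 hK1 hKp hX hcov
  refine le_trans ?_ (mul_le_mul' hKv hdens)
  rw [← ENNReal.ofReal_mul (by have := om_pos (n := n); positivity)]
  refine ENNReal.ofReal_le_ofReal (le_of_eq ?_)
  have := om_pos (n := n)
  rw [hD]; field_simp; ring

/-- In every large dimension some convex body has covering density at least of order `n log n`. -/
theorem lower_eventually : ∀ᶠ n : ℕ in atTop, ∃ K : Set (Euc n), IsConvexBody K ∧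
    ENNReal.ofReal (1 / 4000000000 * n * Real.log n) ≤ thetaT K ∧
    thetaT K ≤ thetaL K ∧ thetaL K < ⊤ := by
  have h1 : ∀ᶠ n : ℕ in atTop, (100000000 : ℝ) ≤ (n : ℝ) ^ ((20 : ℕ) : ℝ)⁻¹ :=
    ((tendsto_rpow_atTop (by norm_num)).comp tendsto_natCast_atTop_atTop).eventually_ge_atTop _
  have h2 : ∀ᶠ n : ℕ in atTop, 20000000000 * (n : ℝ) ^ 10 ≤ 3 ^ n := by
    filter_upwards [(tendsto_pow_const_div_const_pow_of_one_lt 10 (r := (3 : ℝ)) (by norm_num)
      ).eventually_le_const (show (0 : ℝ) < 1 / 20000000000 by norm_num)] with n hn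
    rw [div_le_div_iff₀ (by positivity) (by norm_num)] at hn
    linarith
  filter_upwards [h1, h2] with n hn hb
  obtain ⟨K, hK, hKl⟩ := lower_at (x := (n : ℝ) ^ ((20 : ℕ) : ℝ)⁻¹)
    (Real.rpow_inv_natCast_pow (Nat.cast_nonneg n) (by norm_num)).symm hn hb
  exact ⟨K, hK, hKl, thetaT_le_thetaL K, thetaL_lt_top hK⟩

/-- No linear bound on the covering density. -/
theorem not_linear : ¬ ∃ C : ℝ, ∀ (n : ℕ) (K : Set (Euc n)), IsConvexBody K →
    thetaT K ≤ ENNReal.ofReal (C * n) := by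
  rintro ⟨C, hC⟩
  have h : ∀ᶠ n : ℕ in atTop, max C 0 < 1 / 4000000000 * Real.log n :=
    ((Real.tendsto_log_atTop.comp tendsto_natCast_atTop_atTop).const_mul_atTop
      (by norm_num)).eventually_gt_atTop _
  obtain ⟨n, ⟨hn, hn1⟩, K, hK, hKl, -⟩ :=
    ((h.and (eventually_gt_atTop 0)).and lower_eventually).exists
  have h1 := hKl.trans (hC n K hK)
  have hn0 : (0 : ℝ) < n := by exact_mod_cast hn1
  have hlog : 0 ≤ Real.log n := Real.log_natCast_nonneg n
  have h2 : ENNReal.ofReal (C * n) ≤ ENNReal.ofReal (max C 0 * n) :=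
    ENNReal.ofReal_le_ofReal (mul_le_mul_of_nonneg_right (le_max_left _ _) hn0.le)
  have h3 := h1.trans h2
  rw [ENNReal.ofReal_le_ofReal_iff (by positivity)] at h3
  nlinarith [mul_lt_mul_of_pos_right hn hn0]

/-- The two worst-case densities are at least of order `n log n`. -/
theorem sup_lower : ∃ c : ℝ, 0 < c ∧ ∀ᶠ n : ℕ in atTop,
    ENNReal.ofReal (c * n * Real.log n) ≤ ThetaT n ∧
      ENNReal.ofReal (c * n * Real.log n) ≤ ThetaL n := by
  refine ⟨1 / 4000000000, by norm_num, lower_eventually.mono fun n ⟨K, hK, h1, h2, _⟩ => ?_⟩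
  exact ⟨le_iSup₂_of_le K hK h1, le_iSup₂_of_le K hK (h1.trans h2)⟩

end Vale.Agent.P230
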