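import Vale.Agent.P230.Prob
import Vale.Agent.P230.Cap

/-!
A single test point: the event that all translates covering it are cut away, its probability,
and the correlation of two separated test points.
-/

namespace Vale.Agent.P230

open Finset Real
open scoped Classical

variable {n : ℕ}

/-- Translates whose ball contains `y`. -/
noncomputable def near (Z : Finset (Euc n)) (y : Euc n) : Finset (Euc n) :=
  Z.filter fun z => ‖y - z‖ ≤ 1

/-- Scaled depth. -/
noncomputable def dep (y z : Euc n) : ℝ := (n : ℝ) * (1 - ‖y - z‖ ^ 2)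

/-- Translates with many others close to them. -/
noncomputable def dense (x : ℝ) (Z : Finset (Euc n)) (y : Euc n) : Finset (Euc n) :=
  (near Z y).filter fun z => x ^ 16 < (((near Z y).filter fun w => ‖z - w‖ < 1 / x ^ 5).card : ℝ)

noncomputable def sparse (x : ℝ) (Z : Finset (Euc n)) (y : Euc n) : Finset (Euc n) :=
  near Z y \ dense x Z y

/-- Bound on the number of sparse translates cut by one admissible grid point. -/
noncomputable def lim (x : ℝ) : ℕ := ⌈2 * x ^ 16 + 2⌉₊

noncomputable def scap (d x : ℝ) (Z : Finset (Euc n)) (y z : Euc n) : Finset (Fin n → ℤ) :=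
  (cap d (y - z)).filter fun a =>
    ((sparse x Z y).filter fun w => a ∈ cap d (y - w)).card ≤ lim x

lemma exists_reps (x : ℝ) (hx : 0 < x) (Z : Finset (Euc n)) (y : Euc n) :
    ∃ P : Finset (Euc n), P ⊆ dense x Z y ∧
      (∀ a ∈ P, ∀ b ∈ P, a ≠ b → 2 / x ^ 5 ≤ ‖a - b‖) ∧
      ∀ z ∈ dense x Z y, ∃ a ∈ P, ‖z - a‖ < 2 / x ^ 5 := by
  set D := dense x Z y
  set F := D.powerset.filter fun P => ∀ a ∈ P, ∀ b ∈ P, a ≠ b → 2 / x ^ 5 ≤ ‖a - b‖ with hF
  have hne : F.Nonempty := ⟨∅, by simp [hF]⟩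
  obtain ⟨P, hP, hmax⟩ := F.exists_max_image Finset.card hne
  rw [hF, mem_filter, mem_powerset] at hP
  refine ⟨P, hP.1, hP.2, fun z hz => ?_⟩
  by_contra hc
  push Not at hc
  have hzP : z ∉ P := fun h => by
    have := hc z h
    rw [sub_self, norm_zero] at this
    have : 0 < 2 / x ^ 5 := by positivity
    linarith
  have : insert z P ∈ F := by
    rw [hF, mem_filter, mem_powerset]
    refine ⟨insert_subset hz hP.1, fun a ha b hb hab => ?_⟩
    rcases mem_insert.1 ha with h1 | h1 <;> rcases mem_insert.1 hb with h2 | h2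
    · exact absurd (h1.trans h2.symm) hab
    · rw [h1]; exact hc b h2
    · rw [h2, norm_sub_rev]; exact hc a h1
    · exact hP.2 a h1 b h2 hab
  have := hmax _ this
  rw [card_insert_of_notMem hzP] at this
  omega

noncomputable def reps (x : ℝ) (Z : Finset (Euc n)) (y : Euc n) : Finset (Euc n) :=
  if h : 0 < x then (exists_reps x h Z y).choose else ∅

/-- Radius of the joint cap of a cluster. -/
noncomputable def rcl (n : ℕ) (x : ℝ) : ℝ := 1 / 100 * Real.exp (-(10000 * x / n)) - 2 / x ^ 5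

noncomputable def ccap (d x : ℝ) (y z : Euc n) : Finset (Fin n → ℤ) :=
  gridBall d (y - z) (rcl n x)

/-- All translates containing `y` are cut at `y`. -/
def Ev (d x : ℝ) (Z : Finset (Euc n)) (y : Euc n) (S : Finset (Fin n → ℤ)) : Prop :=
  HitAll (sparse x Z y) (scap d x Z y) S ∧ HitAll (reps x Z y) (ccap d x y) S

noncomputable def region (d : ℝ) (Z : Finset (Euc n)) (y : Euc n) : Finset (Fin n → ℤ) :=
  (near Z y).biUnion fun z => cap d (y - z)

/-- Numerical conditions. -/
structure Asym (x k : ℝ) : Prop where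
  k_nonneg : 0 ≤ k
  far : k * Real.exp (1 - 1250 * x ^ 10) ≤ Real.exp (-(10000 * x + 1))
  ov : k ^ 2 * Real.exp (1 - 1250 * x ^ 18) * Real.exp ((lim x : ℝ) * 2 * (10000 * x + 5)) ≤ 1

/-- A usable test point. -/
structure IsTest (x k : ℝ) (Z : Finset (Euc n)) (y : Euc n) : Prop where
  card_le : ((near Z y).card : ℝ) ≤ k
  dep_le : ∑ z ∈ near Z y, dep y z ≤ k
  dep_max : ∀ z ∈ near Z y, dep y z ≤ x

/-- Cost of one cluster. -/
noncomputable def kap (x : ℝ) : ℝ := 10000 * x + 1600 * x ^ 15 + 4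

variable {x d k : ℝ} {Z : Finset (Euc n)} {y : Euc n}

lemma prob_le_one (h : Small n x d) : prob n d ≤ 1 := by
  have hd := h.hd
  rw [prob, div_le_one (by have := m0_pos (n := n) hd; positivity)]
  have h1 : (1 : ℝ) ≤ ((1 / 100) * (2 / Real.sqrt (n + 1)) / d) ^ n := by
    refine one_le_pow₀ ?_
    rw [le_div_iff₀ hd, one_mul, mul_div_assoc', le_div_iff₀ (by positivity)]
    have hs : Real.sqrt (n + 1) ≤ 2 * Real.sqrt n := by
      rw [show (2 : ℝ) = Real.sqrt 4 by norm_num [show (4 : ℝ) = 2 ^ 2 by norm_num,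
        Real.sqrt_sq], ← Real.sqrt_mul (by norm_num)]
      exact Real.sqrt_le_sqrt (by linarith [h.npos])
    have := mul_le_mul_of_nonneg_left hs hd.le
    have := h.err_le
    unfold err at this
    linarith
  rw [div_pow, mul_pow] at h1
  have h2 := mul_le_mul_of_nonneg_left (om_ge (n := n)) (pow_nonneg (by norm_num : (0:ℝ) ≤ 1/100) n)
  have : 1 ≤ m0 n d := h1.trans (by unfold m0; gcongr)
  linarith

lemma near_norm {z : Euc n} (hz : z ∈ near Z y) : ‖y - z‖ ≤ 1 := (mem_filter.1 hz).2

lemma dep_nonneg {z : Euc n} (hz : z ∈ near Z y) : 0 ≤ dep y z :=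
  mul_nonneg (Nat.cast_nonneg n) (sub_nonneg.2 (pow_le_one₀ (norm_nonneg _) (near_norm hz)))

lemma sparse_subset : sparse x Z y ⊆ near Z y := sdiff_subset

lemma Small.xpos (h : Small n x d) : 0 < x := by linarith [h.hx]

lemma reps_spec (h : Small n x d) :
    reps x Z y ⊆ dense x Z y ∧
      (∀ a ∈ reps x Z y, ∀ b ∈ reps x Z y, a ≠ b → 2 / x ^ 5 ≤ ‖a - b‖) ∧
      ∀ z ∈ dense x Z y, ∃ a ∈ reps x Z y, ‖z - a‖ < 2 / x ^ 5 := by
  rw [reps, dif_pos h.xpos]
  exact (exists_reps x h.xpos Z y).choose_spec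

lemma reps_near (h : Small n x d) : reps x Z y ⊆ near Z y :=
  (reps_spec h).1.trans (filter_subset _ _)

lemma rmin_le_rho (h : Small n x d) (hy : IsTest x k Z y) {z : Euc n} (hz : z ∈ near Z y) :
    1 / 100 * Real.exp (-(10000 * x / n)) ≤ rho (y - z) := by
  have hn := h.npos
  have h0 : 0 ≤ 10000 * x / (n : ℝ) := by have := h.xpos; positivity
  have h1 : 10000 * x / (n : ℝ) ≤ 1 / 2 := by
    rw [div_le_iff₀ (by linarith), h.hn]
    have hx := h.hx
    have : x ^ 2 ≤ x ^ 20 := pow_le_pow_right₀ (by linarith) (by norm_num)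
    nlinarith
  refine le_rho h0 h1 ?_
  have := hy.dep_max z hz
  unfold dep at this
  have h2 : 10000 * x / (n : ℝ) / 10000 = x / n := by ring
  rw [h2, sub_le_comm, le_div_iff₀ (by linarith)]
  linarith

lemma ccap_subset_cap (h : Small n x d) (hy : IsTest x k Z y) {z w : Euc n}
    (hw : w ∈ near Z y) (hzw : ‖w - z‖ < 2 / x ^ 5) : ccap d x y z ⊆ cap d (y - w) := by
  intro a ha
  obtain ⟨h1, h2⟩ := mem_filter.1 ha
  refine mem_filter.2 ⟨h1, ?_⟩
  have h3 := rmin_le_rho h hy hw
  have h4 : ‖pt d a - (y - w)‖ ≤ ‖pt d a - (y - z)‖ + ‖w - z‖ := by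
    rw [show pt d a - (y - w) = (pt d a - (y - z)) + (w - z) by abel]; exact norm_add_le _ _
  unfold rcl at h2
  linarith

lemma ev_cut (h : Small n x d) (hy : IsTest x k Z y) {S : Finset (Fin n → ℤ)}
    (he : Ev d x Z y S) {z : Euc n} (hz : z ∈ near Z y) : ∃ a ∈ S, a ∈ cap d (y - z) := by
  by_cases hd : z ∈ dense x Z y
  · obtain ⟨r, hr, hzr⟩ := (reps_spec h).2.2 z hd
    obtain ⟨a, ha, haS⟩ := he.2 r hr
    exact ⟨a, haS, ccap_subset_cap h hy hz hzr ha⟩
  · obtain ⟨a, ha, haS⟩ := he.1 z (mem_sdiff.2 ⟨hz, hd⟩)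
    exact ⟨a, haS, (mem_filter.1 ha).1⟩

lemma scap_subset {z : Euc n} : scap d x Z y z ⊆ cap d (y - z) := filter_subset _ _

lemma ev_dep (h : Small n x d) (hy : IsTest x k Z y) (S : Finset (Fin n → ℤ)) :
    Ev d x Z y S ↔ Ev d x Z y (S ∩ region d Z y) := by
  constructor
  · intro he
    refine ⟨fun z hz => ?_, fun z hz => ?_⟩
    · obtain ⟨a, ha, haS⟩ := he.1 z hz
      exact ⟨a, ha, mem_inter.2 ⟨haS, mem_biUnion.2 ⟨z, sparse_subset hz, scap_subset ha⟩⟩⟩
    · obtain ⟨a, ha, haS⟩ := he.2 z hz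
      refine ⟨a, ha, mem_inter.2 ⟨haS, mem_biUnion.2 ⟨z, reps_near h hz, ?_⟩⟩⟩
      refine ccap_subset_cap h hy (reps_near h hz) ?_ ha
      rw [sub_self, norm_zero]; have := h.xpos; positivity
  · exact fun he => ⟨hitAll_mono _ _ inter_subset_left he.1, hitAll_mono _ _ inter_subset_left he.2⟩

lemma card_scap_ge (h : Small n x d) (hA : Asym x k) (hy : IsTest x k Z y) {z : Euc n}
    (hz : z ∈ sparse x Z y) : ((cap d (y - z)).card : ℝ) / 2 ≤ ((scap d x Z y z).card : ℝ) := by
  set N := cap d (y - z) with hN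
  set P := sparse x Z y with hP
  have hx := h.xpos
  have hm := m0_pos (n := n) h.hd
  have hznear := sparse_subset hz
  have hnear : (((near Z y).filter fun w => ‖z - w‖ < 1 / x ^ 5).card : ℝ) ≤ x ^ 16 := by
    have := (mem_sdiff.1 hz).2
    rw [dense, mem_filter, not_and, not_lt] at this
    exact this hznear
  have hsum : ∑ a ∈ N, ((P.filter fun w => a ∈ cap d (y - w)).card : ℝ)
      = ∑ w ∈ P, ((N ∩ cap d (y - w)).card : ℝ) := by
    simp only [← sum_boole, ← filter_mem_eq_inter]
    rw [sum_comm]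
  have hbound : ∑ w ∈ P, ((N ∩ cap d (y - w)).card : ℝ) ≤ (x ^ 16 + 1) * N.card := by
    rw [← sum_filter_add_sum_filter_not P (fun w => ‖z - w‖ < 1 / x ^ 5)]
    have h1 : ∑ w ∈ P.filter (fun w => ‖z - w‖ < 1 / x ^ 5), ((N ∩ cap d (y - w)).card : ℝ)
        ≤ x ^ 16 * N.card := by
      calc _ ≤ ∑ _w ∈ P.filter (fun w => ‖z - w‖ < 1 / x ^ 5), (N.card : ℝ) :=
            sum_le_sum fun w _ => by exact_mod_cast card_le_card inter_subset_left
        _ ≤ _ := by
          rw [sum_const, nsmul_eq_mul]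
          refine mul_le_mul_of_nonneg_right (le_trans ?_ hnear) (Nat.cast_nonneg _)
          exact_mod_cast card_le_card (filter_subset_filter _ sparse_subset)
    have h2 : ∑ w ∈ P.filter (fun w => ¬ ‖z - w‖ < 1 / x ^ 5), ((N ∩ cap d (y - w)).card : ℝ)
        ≤ (N.card : ℝ) := by
      calc _ ≤ ∑ _w ∈ P.filter (fun w => ¬ ‖z - w‖ < 1 / x ^ 5),
            m0 n d * Real.exp (1 - 1250 * x ^ 10) := by
            refine sum_le_sum fun w hw => ?_
            obtain ⟨hw1, hw2⟩ := mem_filter.1 hw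
            have h3 := card_lens_le h (near_norm hznear) (near_norm (sparse_subset hw1))
              (r := 1 / x ^ 5) (by positivity) (by
                rw [show y - z - (y - w) = -(z - w) by abel, norm_neg]; linarith)
            refine le_trans h3 (le_of_eq ?_)
            rw [h.hn]; congr 2; field_simp
        _ ≤ m0 n d * Real.exp (-(10000 * x + 1)) := by
          rw [sum_const, nsmul_eq_mul, ← mul_assoc, mul_comm _ (m0 n d), mul_assoc]
          refine mul_le_mul_of_nonneg_left (le_trans ?_ hA.far) hm.le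
          refine mul_le_mul_of_nonneg_right (le_trans ?_ hy.card_le) (Real.exp_nonneg _)
          exact_mod_cast card_le_card ((filter_subset _ _).trans sparse_subset)
        _ ≤ (N.card : ℝ) := by
          refine le_trans ?_ (le_card_cap h (near_norm hznear) (t := dep y z) rfl
            (hy.dep_max z hznear))
          refine mul_le_mul_of_nonneg_left (Real.exp_le_exp.2 ?_) hm.le
          linarith [hy.dep_max z hznear]
    linarith
  have hbad : ((lim x : ℝ)) * ((N.filter fun a =>
      ¬ (P.filter fun w => a ∈ cap d (y - w)).card ≤ lim x).card : ℝ)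
      ≤ ∑ a ∈ N, ((P.filter fun w => a ∈ cap d (y - w)).card : ℝ) := by
    rw [mul_comm, ← nsmul_eq_mul, ← sum_const]
    refine le_trans (sum_le_sum fun a ha => ?_)
      (sum_le_sum_of_subset_of_nonneg (filter_subset _ _) fun a _ _ => Nat.cast_nonneg _)
    have := (mem_filter.1 ha).2
    exact_mod_cast (not_le.1 this).le
  have hsplit : ((scap d x Z y z).card : ℝ) + ((N.filter fun a =>
      ¬ (P.filter fun w => a ∈ cap d (y - w)).card ≤ lim x).card : ℝ) = N.card := by
    have := card_filter_add_card_filter_not (s := N)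
      (fun a => (P.filter fun w => a ∈ cap d (y - w)).card ≤ lim x)
    rw [scap]
    exact_mod_cast this
  have hL : 2 * (x ^ 16 + 1) ≤ (lim x : ℝ) := by
    have := Nat.le_ceil (2 * x ^ 16 + 2); rw [lim]; linarith
  set B := ((N.filter fun a =>
      ¬ (P.filter fun w => a ∈ cap d (y - w)).card ≤ lim x).card : ℝ)
  have hB : 0 ≤ B := Nat.cast_nonneg _
  have hx16 : 0 < x ^ 16 + 1 := by positivity
  have : 2 * (x ^ 16 + 1) * B ≤ (x ^ 16 + 1) * N.card :=
    le_trans (mul_le_mul_of_nonneg_right hL hB) (hbad.trans (hsum.le.trans hbound))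
  nlinarith

lemma hit_scap_ge (h : Small n x d) (hA : Asym x k) (hy : IsTest x k Z y) {z : Euc n}
    (hz : z ∈ sparse x Z y) :
    Real.exp (-(10000 * dep y z + 5)) ≤
      pr (prob n d) (grid n d) (fun S => ∃ a ∈ scap d x Z y z, a ∈ S) := by
  have hp := prob_pos (n := n) h.hd
  have hznear := sparse_subset hz
  have hsub : scap d x Z y z ⊆ grid n d := scap_subset.trans (filter_subset _ _)
  have hm := prob_mul_m0 (n := n) h.hd
  have h1 := card_scap_ge h hA hy hz
  have h2 := le_card_cap h (near_norm hznear) (t := dep y z) rfl (hy.dep_max z hznear)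
  have h3 : prob n d * ((scap d x Z y z).card : ℝ) ≤ 1 := by
    have h4 : ((scap d x Z y z).card : ℝ) ≤ (cap d (y - z)).card := by
      exact_mod_cast card_le_card scap_subset
    nlinarith [card_cap_le h (near_norm hznear)]
  refine le_trans ?_ (pr_hit_ge hp.le (prob_le_one h) hsub h3)
  have h5 : Real.exp (-(10000 * dep y z + 5)) * 32 ≤ Real.exp (-(10000 * dep y z + 1)) := by
    rw [show -(10000 * dep y z + 1) = -(10000 * dep y z + 5) + 4 by ring, Real.exp_add _ 4]
    refine mul_le_mul_of_nonneg_left ?_ (Real.exp_nonneg _)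
    have h6 : Real.exp 4 = Real.exp 1 ^ 4 := by rw [← Real.exp_nat_mul]; norm_num
    have h7 : (2.5 : ℝ) ≤ Real.exp 1 := by
      have := Real.exp_one_gt_d9; linarith
    rw [h6]
    exact le_trans (by norm_num) (pow_le_pow_left₀ (by norm_num) h7 4)
  nlinarith [mul_le_mul_of_nonneg_left h1 hp.le, mul_le_mul_of_nonneg_left h2 hp.le]

lemma card_reps_le (h : Small n x d) (hy : IsTest x k Z y) :
    ((reps x Z y).card : ℝ) * x ^ 16 ≤ k := by
  have hx := h.xpos
  obtain ⟨hsub, hsep, -⟩ := reps_spec (Z := Z) (y := y) h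
  have hdisj : (reps x Z y : Set (Euc n)).PairwiseDisjoint
      fun z => (near Z y).filter fun w => ‖z - w‖ < 1 / x ^ 5 := by
    intro a ha b hb hab
    rw [Function.onFun, disjoint_left]
    intro w hwa hwb
    have h1 := (mem_filter.1 hwa).2
    have h2 := (mem_filter.1 hwb).2
    have h3 : ‖a - b‖ ≤ ‖a - w‖ + ‖b - w‖ := by
      rw [show a - b = (a - w) - (b - w) by abel]; exact norm_sub_le _ _
    have h4 := hsep a ha b hb hab
    have : 2 / x ^ 5 = 1 / x ^ 5 + 1 / x ^ 5 := by ring
    linarith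
  calc ((reps x Z y).card : ℝ) * x ^ 16
      = ∑ _z ∈ reps x Z y, x ^ 16 := by rw [sum_const, nsmul_eq_mul]
    _ ≤ ∑ z ∈ reps x Z y, (((near Z y).filter fun w => ‖z - w‖ < 1 / x ^ 5).card : ℝ) :=
        sum_le_sum fun z hz => (mem_filter.1 (hsub hz)).2.le
    _ ≤ ((near Z y).card : ℝ) := by
        rw [← Nat.cast_sum, ← card_biUnion hdisj]
        exact_mod_cast card_le_card (biUnion_subset.2 fun z _ => filter_subset _ _)
    _ ≤ k := hy.card_le

lemma hit_ccap_ge (h : Small n x d) (hy : IsTest x k Z y) {z : Euc n} (hz : z ∈ reps x Z y) :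
    Real.exp (-kap x) ≤ pr (prob n d) (grid n d) (fun S => ∃ a ∈ ccap d x y z, a ∈ S) := by
  have hp := prob_pos (n := n) h.hd
  have hx := h.xpos
  have hn := h.npos
  have hee := h.err_le
  have he := h.err_pos
  have hznear := reps_near h hz
  have hsubcap : ccap d x y z ⊆ cap d (y - z) :=
    ccap_subset_cap h hy hznear (by rw [sub_self, norm_zero]; positivity)
  set v := 10000 * x / (n : ℝ) with hv
  set s := 2 / x ^ 5 + err n d with hs
  have hR : 2 / x ^ 5 ≤ 1 / 1000000 := by
    rw [div_le_iff₀ (by positivity)]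
    have : x ^ 2 ≤ x ^ 5 := pow_le_pow_right₀ (by linarith [h.hx]) (by norm_num)
    nlinarith [h.hx]
  have hs0 : 0 ≤ 300 * s := by positivity
  have hev : (1 : ℝ) / 3 ≤ Real.exp (-v) := by
    refine le_trans ?_ (Real.exp_le_exp.2 (show (-1 : ℝ) ≤ -v by
      rw [neg_le_neg_iff, hv, div_le_one (by linarith), h.hn]
      have : x ^ 2 ≤ x ^ 20 := pow_le_pow_right₀ (by linarith [h.hx]) (by norm_num)
      nlinarith [h.hx]))
    rw [Real.exp_neg, one_div, inv_le_inv₀ (by norm_num) (Real.exp_pos _)]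
    exact Real.exp_one_lt_three.le
  have hrad : 1 / 100 * Real.exp (-(v + 600 * s)) ≤ rcl n x - err n d := by
    rw [neg_add, Real.exp_add, ← mul_assoc]
    have h6 := exp_neg_le_one_sub hs0 (by linarith)
    rw [show -(2 * (300 * s)) = -(600 * s) by ring] at h6
    calc _ ≤ 1 / 100 * Real.exp (-v) * (1 - 300 * s) :=
          mul_le_mul_of_nonneg_left h6 (by positivity)
      _ ≤ _ := by rw [rcl, ← hv]; nlinarith
  have hc : ‖y - z‖ + rcl n x ≤ 4 := by
    have := near_norm hznear
    have : rcl n x ≤ 1 := by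
      rw [rcl]
      have : Real.exp (-(10000 * x / (n : ℝ))) ≤ 1 := Real.exp_le_one_iff.2 (by
        have : 0 ≤ 10000 * x / (n : ℝ) := by positivity
        linarith)
      have : 0 < 2 / x ^ 5 := by positivity
      linarith
    linarith
  have hcard := le_card_scaled h.hd (y - z) hc hrad
  have hp1 : prob n d * ((ccap d x y z).card : ℝ) ≤ 1 := by
    have : ((ccap d x y z).card : ℝ) ≤ (cap d (y - z)).card := by
      exact_mod_cast card_le_card hsubcap
    nlinarith [card_cap_le h (near_norm hznear), prob_mul_m0 (n := n) h.hd]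
  refine le_trans ?_ (pr_hit_ge hp.le (prob_le_one h) (filter_subset _ _) hp1)
  have h1 : (n : ℝ) * (v + 600 * s) ≤ 10000 * x + 1200 * x ^ 15 + 1 := by
    have e1 : (n : ℝ) * v = 10000 * x := by rw [hv]; field_simp
    have e2 : (n : ℝ) * (2 / x ^ 5) = 2 * x ^ 15 := by rw [h.hn]; field_simp
    rw [hs]
    linarith [h.he]
  have h2 : Real.exp (-kap x) * 16 ≤ Real.exp (-((n : ℝ) * (v + 600 * s))) := by
    refine le_trans ?_ (Real.exp_le_exp.2 (show -kap x + 3 ≤ _ by
      unfold kap; have : 0 ≤ x ^ 15 := by positivity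
      linarith))
    rw [Real.exp_add]
    refine mul_le_mul_of_nonneg_left ?_ (Real.exp_nonneg _)
    have h6 : Real.exp 3 = Real.exp 1 ^ 3 := by rw [← Real.exp_nat_mul]; norm_num
    have h7 : (2.7 : ℝ) ≤ Real.exp 1 := by have := Real.exp_one_gt_d9; linarith
    rw [h6]
    exact le_trans (by norm_num) (pow_le_pow_left₀ (by norm_num) h7 3)
  have h3 : prob n d * m0 n d * Real.exp (-((n : ℝ) * (v + 600 * s))) ≤
      prob n d * ((gridBall d (y - z) (rcl n x)).card : ℝ) := by
    rw [mul_assoc]; exact mul_le_mul_of_nonneg_left hcard hp.le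
  rw [prob_mul_m0 h.hd] at h3
  rw [ccap]
  linarith

lemma pr_reps_ge (h : Small n x d) (hy : IsTest x k Z y) :
    Real.exp (-(kap x * (k / x ^ 16))) ≤
      pr (prob n d) (grid n d) (HitAll (reps x Z y) (ccap d x y)) := by
  have hp := prob_pos (n := n) h.hd
  have hkap : 0 ≤ kap x := by have := h.xpos; unfold kap; positivity
  refine le_trans ?_ (hitAll_ge hp.le (prob_le_one h) _ _ _)
  refine le_trans ?_ (prod_le_prod (fun z _ => Real.exp_nonneg _) fun z hz => hit_ccap_ge h hy hz)
  rw [prod_const, ← Real.exp_nat_mul, Real.exp_le_exp]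
  have h1 : ((reps x Z y).card : ℝ) ≤ k / x ^ 16 := by
    rw [le_div_iff₀ (by have := h.xpos; positivity)]; exact card_reps_le h hy
  nlinarith [mul_le_mul_of_nonneg_left h1 hkap]

lemma pr_sparse_ge (h : Small n x d) (hA : Asym x k) (hy : IsTest x k Z y) :
    Real.exp (-(10005 * k)) ≤
      pr (prob n d) (grid n d) (HitAll (sparse x Z y) (scap d x Z y)) := by
  have hp := prob_pos (n := n) h.hd
  refine le_trans ?_ (hitAll_ge hp.le (prob_le_one h) _ _ _)
  refine le_trans ?_ (prod_le_prod (fun z _ => Real.exp_nonneg _)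
    fun z hz => hit_scap_ge h hA hy hz)
  rw [← Real.exp_sum, Real.exp_le_exp, sum_neg_distrib, neg_le_neg_iff, sum_add_distrib,
    ← mul_sum, sum_const, nsmul_eq_mul]
  have h1 : ∑ z ∈ sparse x Z y, dep y z ≤ k :=
    (sum_le_sum_of_subset_of_nonneg sparse_subset fun z hz _ => dep_nonneg hz).trans hy.dep_le
  have h2 : ((sparse x Z y).card : ℝ) ≤ k :=
    le_trans (by exact_mod_cast card_le_card sparse_subset) hy.card_le
  linarith

lemma ev_ge_prod (h : Small n x d) :
    pr (prob n d) (grid n d) (HitAll (sparse x Z y) (scap d x Z y)) *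
      pr (prob n d) (grid n d) (HitAll (reps x Z y) (ccap d x y)) ≤
      pr (prob n d) (grid n d) (Ev d x Z y) :=
  pr_and_harris (prob_pos h.hd).le (prob_le_one h) (hitAll_mono _ _) (hitAll_mono _ _)

lemma ev_ge (h : Small n x d) (hA : Asym x k) (hy : IsTest x k Z y) :
    Real.exp (-(10005 * k + kap x * (k / x ^ 16))) ≤ pr (prob n d) (grid n d) (Ev d x Z y) := by
  refine le_trans ?_ (ev_ge_prod h)
  rw [neg_add, Real.exp_add]
  exact mul_le_mul (pr_sparse_ge h hA hy) (pr_reps_ge h hy) (Real.exp_nonneg _)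
    (pr_nonneg (prob_pos h.hd).le (prob_le_one h) _ _)

lemma ev_corr (h : Small n x d) (hA : Asym x k) {y' : Euc n} (hy : IsTest x k Z y)
    (hy' : IsTest x k Z y')
    (hsep : ∀ z ∈ near Z y, ∀ w ∈ near Z y', 1 / x ≤ ‖(y - z) - (y' - w)‖) :
    pr (prob n d) (grid n d) (fun S => Ev d x Z y S ∧ Ev d x Z y' S) ≤
      Real.exp (1 + 2 * (kap x * (k / x ^ 16))) *
        (pr (prob n d) (grid n d) (Ev d x Z y) * pr (prob n d) (grid n d) (Ev d x Z y')) := by
  set p := prob n d with hpdef
  set G := grid n d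
  have hp := prob_pos (n := n) h.hd
  have hp1 := prob_le_one h
  have hx := h.xpos
  have hm := m0_pos (n := n) h.hd
  set q := Real.exp (-(10000 * x + 5)) with hq
  set O := (sparse x Z y).biUnion fun z => (sparse x Z y').biUnion fun w =>
    cap d (y - z) ∩ cap d (y' - w)
  have hqC : ∀ (y : Euc n), IsTest x k Z y → ∀ i ∈ sparse x Z y,
      q ≤ pr p G (fun S => ∃ a ∈ scap d x Z y i, a ∈ S) := fun y hy i hi =>
    le_trans (Real.exp_le_exp.2 (by linarith [hy.dep_max i (sparse_subset hi)]))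
      (hit_scap_ge h hA hy hi)
  have hL : ∀ (y : Euc n) (a : Fin n → ℤ),
      ((sparse x Z y).filter fun i => a ∈ scap d x Z y i).card ≤ lim x := by
    intro y a
    by_cases he : ((sparse x Z y).filter fun i => a ∈ scap d x Z y i).Nonempty
    · obtain ⟨i, hi⟩ := he
      refine le_trans (card_le_card ?_) (mem_filter.1 (mem_filter.1 hi).2).2
      intro w hw
      simp only [mem_filter] at hw ⊢
      exact ⟨hw.1, scap_subset hw.2⟩
    · rw [Finset.not_nonempty_iff_eq_empty.1 he]; simp
  have hc := hit_corr (p := p) hp.le hp1 (G := G) (O := O) (q := q) (L := lim x)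
    (Real.exp_pos _) (Real.exp_le_one_iff.2 (by linarith))
    (C := scap d x Z y) (D := scap d x Z y') (hqC y hy) (hqC y' hy')
    (fun a => by convert hL y a) (fun a => by convert hL y' a)
    (fun i hi j hj a _ ha hb => mem_biUnion.2 ⟨i, hi, mem_biUnion.2
      ⟨j, hj, mem_inter.2 ⟨scap_subset ha, scap_subset hb⟩⟩⟩)
  have hOcard : (O.card : ℝ) ≤ k ^ 2 * (m0 n d * Real.exp (1 - 1250 * x ^ 18)) := by
    calc (O.card : ℝ) ≤ ∑ z ∈ sparse x Z y, ∑ w ∈ sparse x Z y',
          ((cap d (y - z) ∩ cap d (y' - w)).card : ℝ) := by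
          exact_mod_cast card_biUnion_le.trans (sum_le_sum fun z _ => card_biUnion_le)
      _ ≤ ∑ z ∈ sparse x Z y, ∑ _w ∈ sparse x Z y', m0 n d * Real.exp (1 - 1250 * x ^ 18) := by
          refine sum_le_sum fun z hz => sum_le_sum fun w hw => ?_
          refine le_trans (card_lens_le h (near_norm (sparse_subset hz))
            (near_norm (sparse_subset hw)) (r := 1 / x) (by positivity)
            (hsep z (sparse_subset hz) w (sparse_subset hw))) (le_of_eq ?_)
          rw [h.hn]; congr 2; field_simp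
      _ ≤ _ := by
          rw [sum_const, sum_const, nsmul_eq_mul, nsmul_eq_mul, ← mul_assoc, sq]
          have a1 : ((sparse x Z y).card : ℝ) ≤ k :=
            le_trans (by exact_mod_cast card_le_card sparse_subset) hy.card_le
          have a2 : ((sparse x Z y').card : ℝ) ≤ k :=
            le_trans (by exact_mod_cast card_le_card sparse_subset) hy'.card_le
          have := hA.k_nonneg
          gcongr
  have hqq : 1 / q ^ (2 * lim x) = Real.exp ((lim x : ℝ) * 2 * (10000 * x + 5)) := by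
    rw [hq, ← Real.exp_nat_mul, one_div, ← Real.exp_neg]; push_cast; ring_nf
  have hK : (1 + p * (1 / q ^ (2 * lim x) - 1)) ^ O.card ≤ Real.exp 1 := by
    rw [hqq]
    set E := Real.exp ((lim x : ℝ) * 2 * (10000 * x + 5))
    have hE : 1 ≤ E := Real.one_le_exp (by positivity)
    calc (1 + p * (E - 1)) ^ O.card ≤ Real.exp (p * (E - 1)) ^ O.card :=
          pow_le_pow_left₀ (by nlinarith) (by linarith [Real.add_one_le_exp (p * (E - 1))]) _
      _ ≤ Real.exp 1 := by
          rw [← Real.exp_nat_mul, Real.exp_le_exp]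
          have h8 := prob_mul_m0 (n := n) h.hd
          have hov := hA.ov
          set F := Real.exp (1 - 1250 * x ^ 18)
          calc (O.card : ℝ) * (p * (E - 1)) ≤ (k ^ 2 * (m0 n d * F)) * (p * E) := by
                refine mul_le_mul hOcard ?_ (by nlinarith) (by positivity)
                nlinarith
            _ = (prob n d * m0 n d) * (k ^ 2 * F * E) := by rw [hpdef]; ring
            _ ≤ 1 := by rw [h8]; linarith
  set PS := pr p G (HitAll (sparse x Z y) (scap d x Z y))
  set PS' := pr p G (HitAll (sparse x Z y') (scap d x Z y'))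
  set lossD := Real.exp (kap x * (k / x ^ 16)) with hloss
  have key : ∀ (y : Euc n), IsTest x k Z y →
      pr p G (HitAll (sparse x Z y) (scap d x Z y)) ≤ lossD * pr p G (Ev d x Z y) := by
    intro y hy
    have h1 := ev_ge_prod (Z := Z) (y := y) h
    have h2 := pr_reps_ge (Z := Z) (y := y) h hy
    have h3 : 0 ≤ pr p G (HitAll (sparse x Z y) (scap d x Z y)) := pr_nonneg hp.le hp1 _ _
    have h4 := (mul_le_mul_of_nonneg_left h2 h3).trans h1
    rw [Real.exp_neg, ← div_eq_mul_inv, div_le_iff₀ (Real.exp_pos _)] at h4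
    rw [hloss]; linarith
  have hnn : 0 ≤ PS' := pr_nonneg hp.le hp1 _ _
  have hnn1 : 0 ≤ PS := pr_nonneg hp.le hp1 _ _
  calc pr p G (fun S => Ev d x Z y S ∧ Ev d x Z y' S)
      ≤ pr p G (fun S => HitAll (sparse x Z y) (scap d x Z y) S ∧
          HitAll (sparse x Z y') (scap d x Z y') S) :=
        pr_mono hp.le hp1 fun S _ hS => ⟨hS.1.1, hS.2.1⟩
    _ ≤ Real.exp 1 * (PS * PS') := hc.trans (mul_le_mul_of_nonneg_right hK (mul_nonneg hnn1 hnn))
    _ ≤ Real.exp 1 * ((lossD * pr p G (Ev d x Z y)) * (lossD * pr p G (Ev d x Z y'))) := by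
        refine mul_le_mul_of_nonneg_left ?_ (Real.exp_nonneg _)
        exact mul_le_mul (key y hy) (key y' hy') hnn
          (mul_nonneg (Real.exp_nonneg _) (pr_nonneg hp.le hp1 _ _))
    _ = _ := by rw [hloss, two_mul, Real.exp_add, Real.exp_add]; ring

end Vale.Agent.P230
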