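import Mathlib

/-!
Random subsets of a finite set, each element chosen independently with probability `p`:
Harris inequality, independence, second moment and a correlation bound for hitting events.
-/

namespace Vale.Agent.P230

set_option linter.unusedSectionVars false

open Finset
open scoped Classical

variable {α ι κ : Type*} [DecidableEq α]

/-- Expectation over a random subset of `G`, each element kept independently with probability `p`. -/
noncomputable def wExp (p : ℝ) (G : Finset α) (f : Finset α → ℝ) : ℝ :=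
  ∑ S ∈ G.powerset, p ^ S.card * (1 - p) ^ (G.card - S.card) * f S

noncomputable def indic (A : Finset α → Prop) (S : Finset α) : ℝ := if A S then 1 else 0

noncomputable def pr (p : ℝ) (G : Finset α) (A : Finset α → Prop) : ℝ := wExp p G (indic A)

def HitAll (I : Finset ι) (C : ι → Finset α) (S : Finset α) : Prop := ∀ i ∈ I, ∃ a ∈ C i, a ∈ S

def DepOn (A : Finset α) (f : Finset α → ℝ) : Prop := ∀ S, f S = f (S ∩ A)

lemma indic_nonneg (A : Finset α → Prop) (S : Finset α) : 0 ≤ indic A S := by
  unfold indic; split_ifs <;> norm_num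

lemma indic_le_one (A : Finset α → Prop) (S : Finset α) : indic A S ≤ 1 := by
  unfold indic; split_ifs <;> norm_num

lemma indic_mono {A B : Finset α → Prop} {S T : Finset α} (h : A S → B T) :
    indic A S ≤ indic B T := by
  unfold indic; split_ifs with h1 h2
  · exact le_rfl
  · exact absurd (h h1) h2
  · norm_num
  · exact le_rfl

lemma wExp_empty (p : ℝ) (f : Finset α → ℝ) : wExp p ∅ f = f ∅ := by simp [wExp]

lemma wExp_insert {p : ℝ} {G : Finset α} {a : α} (ha : a ∉ G) (f : Finset α → ℝ) :
    wExp p (insert a G) f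
      = (1 - p) * wExp p G f + p * wExp p G (fun S => f (insert a S)) := by
  unfold wExp
  rw [sum_powerset_insert ha, mul_sum, mul_sum, card_insert_of_notMem ha]
  congr 1 <;> refine sum_congr rfl fun S hS => ?_
  · have hc := card_le_card (mem_powerset.1 hS)
    rw [show G.card + 1 - S.card = (G.card - S.card) + 1 by omega, pow_succ]
    ring
  · have hS' := mem_powerset.1 hS
    rw [card_insert_of_notMem (fun h => ha (hS' h)),
      show G.card + 1 - (S.card + 1) = G.card - S.card by omega, pow_succ]
    ring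

lemma wExp_add (p : ℝ) (G : Finset α) (f g : Finset α → ℝ) :
    wExp p G (fun S => f S + g S) = wExp p G f + wExp p G g := by
  simp [wExp, mul_add, sum_add_distrib]

lemma wExp_const_mul (p : ℝ) (G : Finset α) (c : ℝ) (f : Finset α → ℝ) :
    wExp p G (fun S => c * f S) = c * wExp p G f := by
  simp only [wExp, mul_sum]; exact sum_congr rfl fun S _ => by ring

lemma wExp_sum (p : ℝ) (G : Finset α) (I : Finset ι) (f : ι → Finset α → ℝ) :
    wExp p G (fun S => ∑ i ∈ I, f i S) = ∑ i ∈ I, wExp p G (f i) := by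
  simp only [wExp, mul_sum]; exact sum_comm

lemma wExp_const (p : ℝ) (G : Finset α) (c : ℝ) : wExp p G (fun _ => c) = c := by
  induction G using Finset.induction with
  | empty => simp [wExp_empty]
  | insert a G ha ih => rw [wExp_insert ha, ih]; ring

section

variable {p : ℝ} (hp0 : 0 ≤ p) (hp1 : p ≤ 1)

include hp0 hp1

lemma wExp_mono {G : Finset α} {f g : Finset α → ℝ} (h : ∀ S, S ⊆ G → f S ≤ g S) :
    wExp p G f ≤ wExp p G g := by
  unfold wExp
  refine sum_le_sum fun S hS => mul_le_mul_of_nonneg_left (h S (mem_powerset.1 hS)) ?_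
  have : 0 ≤ 1 - p := by linarith
  positivity

lemma wExp_nonneg {G : Finset α} {f : Finset α → ℝ} (h : ∀ S, 0 ≤ f S) : 0 ≤ wExp p G f := by
  have := wExp_mono hp0 hp1 (G := G) (f := fun _ => 0) (g := f) fun S _ => h S
  rwa [wExp_const] at this

lemma harris {G : Finset α} {f g : Finset α → ℝ} (hf : Monotone f) (hg : Monotone g) :
    wExp p G f * wExp p G g ≤ wExp p G (fun S => f S * g S) := by
  induction G using Finset.induction generalizing f g with
  | empty => simp [wExp_empty]
  | insert a G ha ih =>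
    rw [wExp_insert ha, wExp_insert ha, wExp_insert ha]
    have hf' : Monotone fun S : Finset α => f (insert a S) :=
      fun S T h => hf (insert_subset_insert a h)
    have hg' : Monotone fun S : Finset α => g (insert a S) :=
      fun S T h => hg (insert_subset_insert a h)
    have h0 := ih hf hg
    have h1 := ih hf' hg'
    have df := wExp_mono hp0 hp1 (G := G) (f := f) (g := fun S => f (insert a S))
      fun S _ => hf (subset_insert a S)
    have dg := wExp_mono hp0 hp1 (G := G) (f := g) (g := fun S => g (insert a S))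
      fun S _ => hg (subset_insert a S)
    have hp' : 0 ≤ 1 - p := by linarith
    nlinarith [mul_le_mul_of_nonneg_left h0 hp', mul_le_mul_of_nonneg_left h1 hp0,
      mul_nonneg (mul_nonneg hp0 hp') (mul_nonneg (sub_nonneg.2 df) (sub_nonneg.2 dg))]

lemma wExp_ground_mono {G G' : Finset α} {f : Finset α → ℝ} (hf : Monotone f) (h : G ⊆ G') :
    wExp p G f ≤ wExp p G' f := by
  induction G' using Finset.induction generalizing f G with
  | empty => rw [subset_empty.1 h]
  | insert a G' ha ih =>
    rw [wExp_insert ha]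
    have hf' : Monotone fun S : Finset α => f (insert a S) :=
      fun S T h => hf (insert_subset_insert a h)
    have hd := wExp_mono hp0 hp1 (G := G') (f := f) (g := fun S => f (insert a S))
      fun S _ => hf (subset_insert a S)
    by_cases haG : a ∈ G
    · have hG : G.erase a ⊆ G' := by
        intro b hb
        rcases mem_insert.1 (h (mem_of_mem_erase hb)) with rfl | hb'
        · exact absurd rfl (ne_of_mem_erase hb)
        · exact hb'
      rw [← insert_erase haG, wExp_insert (notMem_erase a G)]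
      have hp' : 0 ≤ 1 - p := by linarith
      gcongr
      · exact ih hf hG
      · exact ih hf' hG
    · have hG : G ⊆ G' := (subset_insert_iff_of_notMem haG).1 h
      have := ih hf hG
      nlinarith [mul_le_mul_of_nonneg_left hd hp0]

lemma pr_nonneg (G : Finset α) (A : Finset α → Prop) : 0 ≤ pr p G A :=
  wExp_nonneg hp0 hp1 (indic_nonneg A)

lemma pr_le_one (G : Finset α) (A : Finset α → Prop) : pr p G A ≤ 1 := by
  calc pr p G A ≤ wExp p G (fun _ => 1) := wExp_mono hp0 hp1 fun S _ => indic_le_one A S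
    _ = 1 := wExp_const _ _ _

lemma pr_mono {G : Finset α} {A B : Finset α → Prop} (h : ∀ S, S ⊆ G → A S → B S) :
    pr p G A ≤ pr p G B :=
  wExp_mono hp0 hp1 fun S hS => indic_mono (h S hS)

lemma pr_and_harris {G : Finset α} {A B : Finset α → Prop} (hA : Monotone A) (hB : Monotone B) :
    pr p G A * pr p G B ≤ pr p G (fun S => A S ∧ B S) := by
  refine (harris hp0 hp1 (fun S T h => indic_mono (hA h)) (fun S T h => indic_mono (hB h))).trans ?_
  refine le_of_eq (Finset.sum_congr rfl fun S _ => ?_)
  congr 1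
  unfold indic
  by_cases a : A S <;> by_cases b : B S <;> simp [a, b]

lemma pr_exists_le (G : Finset α) (I : Finset ι) (A : ι → Finset α → Prop) :
    pr p G (fun S => ∃ i ∈ I, A i S) ≤ ∑ i ∈ I, pr p G (A i) := by
  unfold pr
  rw [← wExp_sum]
  refine wExp_mono hp0 hp1 fun S _ => ?_
  by_cases h : ∃ i ∈ I, A i S
  · obtain ⟨i, hi, hA⟩ := h
    calc indic (fun S => ∃ i ∈ I, A i S) S ≤ 1 := indic_le_one _ _
      _ = indic (A i) S := by simp [indic, hA]
      _ ≤ _ := single_le_sum (f := fun i => indic (A i) S) (fun j _ => indic_nonneg _ _) hi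
  · calc indic (fun S => ∃ i ∈ I, A i S) S = 0 := by simp [indic, h]
      _ ≤ _ := sum_nonneg fun j _ => indic_nonneg _ _

omit hp0 hp1 in
lemma pr_not (G : Finset α) (A : Finset α → Prop) :
    pr p G (fun S => ¬ A S) = 1 - pr p G A := by
  have : wExp p G (fun S => indic (fun S => ¬ A S) S + indic A S) = 1 := by
    have : (fun S => indic (fun S => ¬ A S) S + indic A S) = fun _ => (1 : ℝ) := by
      funext S; by_cases h : A S <;> simp [indic, h]
    rw [this, wExp_const]
  rw [wExp_add] at this
  unfold pr; linarith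

lemma markov {G : Finset α} {f : Finset α → ℝ} (hf : ∀ S, 0 ≤ f S) {t : ℝ} (ht : 0 < t) :
    pr p G (fun S => t ≤ f S) ≤ wExp p G f / t := by
  rw [le_div_iff₀ ht, mul_comm, pr, ← wExp_const_mul]
  refine wExp_mono hp0 hp1 fun S _ => ?_
  by_cases h : t ≤ f S <;> simp [indic, h, hf S]

lemma exists_subset_not_of_pr_lt {G : Finset α} {A : Finset α → Prop} (h : pr p G A < 1) :
    ∃ S, S ⊆ G ∧ ¬ A S := by
  by_contra hc
  push Not at hc
  have : wExp p G (fun _ => (1 : ℝ)) ≤ pr p G A :=
    wExp_mono hp0 hp1 fun S hS => by simp [indic, hc S hS]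
  rw [wExp_const] at this
  linarith

omit hp0 hp1 in
lemma wExp_mul_of_depOn {G A B : Finset α} {f g : Finset α → ℝ}
    (hf : DepOn A f) (hg : DepOn B g) (hd : Disjoint A B) :
    wExp p G (fun S => f S * g S) = wExp p G f * wExp p G g := by
  induction G using Finset.induction generalizing f g with
  | empty => simp [wExp_empty]
  | insert a G ha ih =>
    have key : ∀ {C : Finset α} {h : Finset α → ℝ}, DepOn C h → a ∉ C →
        (fun S => h (insert a S)) = h := by
      intro C h hh haC
      funext S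
      rw [hh (insert a S), insert_inter_of_notMem haC, ← hh S]
    have dep : ∀ {C : Finset α} {h : Finset α → ℝ}, DepOn C h →
        DepOn C (fun S => h (insert a S)) := by
      intro C h hh S
      show h (insert a S) = h (insert a (S ∩ C))
      rw [hh (insert a S), hh (insert a (S ∩ C))]
      congr 1; ext b; simp only [mem_inter, mem_insert]; tauto
    rw [wExp_insert ha, wExp_insert ha, wExp_insert ha, ih hf hg, ih (dep hf) (dep hg)]
    by_cases haA : a ∈ A
    · rw [key hg (disjoint_left.1 hd haA)]; ring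
    · rw [key hf haA]; ring

omit hp0 hp1 in
lemma wExp_prod_of_depOn {G : Finset α} (K : Finset κ) (A : κ → Finset α)
    (f : κ → Finset α → ℝ) (hf : ∀ k ∈ K, DepOn (A k) (f k))
    (hd : ∀ k ∈ K, ∀ l ∈ K, k ≠ l → Disjoint (A k) (A l)) :
    wExp p G (fun S => ∏ k ∈ K, f k S) = ∏ k ∈ K, wExp p G (f k) := by
  induction K using Finset.induction with
  | empty => simp [wExp_const]
  | insert k K hk ih =>
    simp only [prod_insert hk]
    rw [wExp_mul_of_depOn (A := A k) (B := K.biUnion A) (hf k (mem_insert_self _ _))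
      (g := fun S => ∏ l ∈ K, f l S) ?_ ?_, ih (fun l hl => hf l (mem_insert_of_mem hl))
        (fun l hl m hm => hd l (mem_insert_of_mem hl) m (mem_insert_of_mem hm))]
    · intro S
      refine prod_congr rfl fun l hl => ?_
      rw [hf l (mem_insert_of_mem hl) S, hf l (mem_insert_of_mem hl) (S ∩ K.biUnion A)]
      congr 1; ext b; simp only [mem_inter, mem_biUnion]; grind
    · rw [disjoint_biUnion_right]
      exact fun l hl => hd k (mem_insert_self _ _) l (mem_insert_of_mem hl) (by grind)

omit hp0 hp1 in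
lemma pr_miss {G C : Finset α} (h : C ⊆ G) :
    pr p G (fun S => ∀ a ∈ C, a ∉ S) = (1 - p) ^ C.card := by
  have h1 : indic (fun S => ∀ a ∈ C, a ∉ S) = fun S => ∏ a ∈ C, indic (fun S => a ∉ S) S := by
    funext S
    by_cases hc : ∀ a ∈ C, a ∉ S
    · simp only [indic, if_pos hc]; exact (prod_eq_one fun a ha => if_pos (hc a ha)).symm
    · push Not at hc
      obtain ⟨a, ha, haS⟩ := hc
      rw [prod_eq_zero ha (by simp [indic, haS])]
      simp only [indic]; rw [if_neg]; exact fun h => h a ha haS
  unfold pr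
  rw [h1, wExp_prod_of_depOn C (fun a => {a})]
  · refine prod_eq_pow_card fun a ha => ?_
    have h2 := wExp_insert (p := p) (notMem_erase a G) (indic (fun S => a ∉ S))
    rw [insert_erase (h ha)] at h2
    rw [h2]
    have : wExp p (G.erase a) (indic fun S => a ∉ S) = 1 := by
      rw [show (1 : ℝ) = wExp p (G.erase a) (fun _ => 1) from (wExp_const _ _ _).symm]
      refine sum_congr rfl fun S hS => ?_
      have : a ∉ S := fun ha' => notMem_erase a G (mem_powerset.1 hS ha')
      simp [indic, this]
    rw [this, show (fun S => indic (fun S => a ∉ S) (insert a S)) = fun _ => (0 : ℝ) by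
      funext S; simp [indic], wExp_const]
    ring
  · intro a _ S; simp [indic]
  · intro a _ b _ hab; simpa using hab

lemma pr_hit_ge {G C : Finset α} (h : C ⊆ G) (hc : p * C.card ≤ 1) :
    p * C.card / 2 ≤ pr p G (fun S => ∃ a ∈ C, a ∈ S) := by
  have h1 : pr p G (fun S => ∃ a ∈ C, a ∈ S) = 1 - (1 - p) ^ C.card := by
    rw [← pr_miss h, ← pr_not]; congr 1; funext S; simp
  rw [h1]
  have h2 : (1 - p) ^ C.card ≤ Real.exp (-(p * C.card)) := by
    rw [show -(p * (C.card : ℝ)) = (C.card : ℕ) * (-p) by ring, Real.exp_nat_mul]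
    exact pow_le_pow_left₀ (by linarith) (Real.one_sub_le_exp_neg p) _
  set y := p * (C.card : ℝ) with hy
  have hy0 : 0 ≤ y := by positivity
  have h3 : Real.exp (-y) ≤ 1 - y / 2 := by
    rw [Real.exp_neg, inv_le_iff_one_le_mul₀ (Real.exp_pos _)]
    nlinarith [Real.add_one_le_exp y, mul_nonneg hy0 (sub_nonneg.2 hc)]
  linarith

omit hp0 hp1 in
lemma hitAll_mono (I : Finset ι) (C : ι → Finset α) : Monotone (HitAll I C) := by
  intro S T h hS i hi
  obtain ⟨a, ha, haS⟩ := hS i hi
  exact ⟨a, ha, h haS⟩

lemma hitAll_ge (G : Finset α) (I : Finset ι) (C : ι → Finset α) :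
    ∏ i ∈ I, pr p G (fun S => ∃ a ∈ C i, a ∈ S) ≤ pr p G (HitAll I C) := by
  induction I using Finset.induction with
  | empty =>
    rw [prod_empty, show (1 : ℝ) = wExp p G (fun _ => 1) from (wExp_const _ _ _).symm]
    exact wExp_mono hp0 hp1 fun S _ => by simp [indic, HitAll]
  | insert i I hi ih =>
    rw [prod_insert hi]
    refine le_trans (mul_le_mul_of_nonneg_left ih (pr_nonneg hp0 hp1 _ _)) ?_
    refine (pr_and_harris hp0 hp1 ?_ (hitAll_mono I C)).trans
      (pr_mono hp0 hp1 fun S _ hS => forall_mem_insert _ _ _ |>.2 hS)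
    intro S T h hS
    obtain ⟨a, ha, haS⟩ := hS
    exact ⟨a, ha, h haS⟩

/-- Correlation of two hitting events whose families share only few, weakly hitting points. -/
lemma hit_corr {G O : Finset α} {q : ℝ} {L : ℕ} (hq0 : 0 < q) (hq1 : q ≤ 1)
    {I₀ J₀ : Finset ι} {C D : ι → Finset α}
    (hqC : ∀ i ∈ I₀, q ≤ pr p G (fun S => ∃ a ∈ C i, a ∈ S))
    (hqD : ∀ i ∈ J₀, q ≤ pr p G (fun S => ∃ a ∈ D i, a ∈ S))
    (hLC : ∀ a, (I₀.filter fun i => a ∈ C i).card ≤ L)
    (hLD : ∀ a, (J₀.filter fun i => a ∈ D i).card ≤ L)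
    (hov : ∀ i ∈ I₀, ∀ j ∈ J₀, ∀ a ∈ G, a ∈ C i → a ∈ D j → a ∈ O) :
    pr p G (fun S => HitAll I₀ C S ∧ HitAll J₀ D S) ≤
      (1 + p * (1 / q ^ (2 * L) - 1)) ^ O.card *
        (pr p G (HitAll I₀ C) * pr p G (HitAll J₀ D)) := by
  set K := (1 + p * (1 / q ^ (2 * L) - 1)) with hK
  have hq2 : 1 ≤ 1 / q ^ (2 * L) := by
    rw [le_div_iff₀ (pow_pos hq0 _), one_mul]; exact pow_le_one₀ hq0.le hq1
  suffices h : ∀ (O' G' : Finset α) (I J : Finset ι), G' ⊆ G → I ⊆ I₀ → J ⊆ J₀ →
      (∀ i ∈ I, ∀ j ∈ J, ∀ a ∈ G', a ∈ C i → a ∈ D j → a ∈ O') →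
      pr p G' (fun S => HitAll I C S ∧ HitAll J D S) ≤
        K ^ O'.card * (pr p G (HitAll I C) * pr p G (HitAll J D)) from
    h O G I₀ J₀ subset_rfl subset_rfl subset_rfl hov
  intro O'
  induction O' using Finset.induction with
  | empty =>
    intro G' I J hG hI hJ hov'
    have hd : Disjoint ((I.biUnion C) ∩ G') ((J.biUnion D) ∩ G') := by
      rw [disjoint_left]; intro a ha hb
      simp only [mem_inter, mem_biUnion] at ha hb
      obtain ⟨⟨i, hi, hai⟩, haG⟩ := ha
      obtain ⟨⟨j, hj, haj⟩, -⟩ := hb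
      exact absurd (hov' i hi j hj a haG hai haj) (notMem_empty a)
    have e : ∀ (I : Finset ι) (C : ι → Finset α), ∀ S, S ⊆ G' →
        indic (HitAll I C) (S ∩ ((I.biUnion C) ∩ G')) = indic (HitAll I C) S := by
      intro I C S hS
      refine le_antisymm (indic_mono (hitAll_mono I C inter_subset_left ·)) (indic_mono ?_)
      intro h i hi
      obtain ⟨a, ha, haS⟩ := h i hi
      refine ⟨a, ha, ?_⟩
      simp only [mem_inter, mem_biUnion]
      exact ⟨haS, ⟨i, hi, ha⟩, hS haS⟩
    have hdep : ∀ (I : Finset ι) (C : ι → Finset α),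
        DepOn ((I.biUnion C) ∩ G') (fun S => indic (HitAll I C) (S ∩ ((I.biUnion C) ∩ G'))) := by
      intro I C S; simp [inter_assoc]
    have he : ∀ (I : Finset ι) (C : ι → Finset α),
        wExp p G' (fun S => indic (HitAll I C) (S ∩ ((I.biUnion C) ∩ G'))) = pr p G' (HitAll I C) :=
      fun I C => sum_congr rfl fun S hS => by simp only [e I C S (mem_powerset.1 hS)]
    have h1 : pr p G' (fun S => HitAll I C S ∧ HitAll J D S)
        = pr p G' (HitAll I C) * pr p G' (HitAll J D) := by
      rw [← he I C, ← he J D, ← wExp_mul_of_depOn (hdep I C) (hdep J D) hd]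
      refine sum_congr rfl fun S hS => ?_
      simp only [e I C S (mem_powerset.1 hS), e J D S (mem_powerset.1 hS)]
      congr 1
      unfold indic
      by_cases a : HitAll I C S <;> by_cases b : HitAll J D S <;> simp [a, b]
    rw [h1, card_empty, pow_zero, one_mul]
    exact mul_le_mul (wExp_ground_mono hp0 hp1 (fun S T h => indic_mono (hitAll_mono I C h ·)) hG)
      (wExp_ground_mono hp0 hp1 (fun S T h => indic_mono (hitAll_mono J D h ·)) hG)
      (pr_nonneg hp0 hp1 _ _) (pr_nonneg hp0 hp1 _ _)
  | insert o O' ho ih =>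
    intro G' I J hG hI hJ hov'
    have hK1 : 1 ≤ K := by rw [hK]; nlinarith
    have hPI := pr_nonneg hp0 hp1 G (HitAll I C)
    have hPJ := pr_nonneg hp0 hp1 G (HitAll J D)
    rw [card_insert_of_notMem ho]
    by_cases hoG : o ∈ G'
    swap
    · refine (ih G' I J hG hI hJ fun i hi j hj a ha h1 h2 => ?_).trans ?_
      · rcases mem_insert.1 (hov' i hi j hj a ha h1 h2) with rfl | h
        · exact absurd ha hoG
        · exact h
      · gcongr
        · omega
    set G'' := G'.erase o with hG''
    have hG2 : G'' ⊆ G := (erase_subset _ _).trans hG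
    have hov2 : ∀ I' ⊆ I, ∀ J' ⊆ J,
        ∀ i ∈ I', ∀ j ∈ J', ∀ a ∈ G'', a ∈ C i → a ∈ D j → a ∈ O' := by
      intro I' hI' J' hJ' i hi j hj a ha h1 h2
      rcases mem_insert.1 (hov' i (hI' hi) j (hJ' hj) a (mem_of_mem_erase ha) h1 h2) with rfl | h
      · exact absurd rfl (ne_of_mem_erase ha)
      · exact h
    set I' := I.filter (fun i => o ∉ C i) with hI'
    set J' := J.filter (fun i => o ∉ D i) with hJ'
    have h0 := ih G'' I J hG2 hI hJ (hov2 I subset_rfl J subset_rfl)
    have h1 := ih G'' I' J' hG2 ((filter_subset _ _).trans hI) ((filter_subset _ _).trans hJ)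
      (hov2 I' (filter_subset _ _) J' (filter_subset _ _))
    have boost : ∀ (I : Finset ι) (C : ι → Finset α),
        (∀ i ∈ I, q ≤ pr p G (fun S => ∃ a ∈ C i, a ∈ S)) →
        (I.filter fun i => o ∈ C i).card ≤ L →
        q ^ L * pr p G (HitAll (I.filter fun i => o ∉ C i) C) ≤ pr p G (HitAll I C) := by
      intro I C hq hL
      set H := I.filter fun i => o ∈ C i
      have hH : q ^ L ≤ pr p G (HitAll H C) := by
        refine le_trans ?_ (hitAll_ge hp0 hp1 G H C)
        calc q ^ L ≤ q ^ H.card := pow_le_pow_of_le_one hq0.le hq1 hL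
          _ = ∏ _i ∈ H, q := by rw [prod_const]
          _ ≤ _ := prod_le_prod (fun _ _ => hq0.le) fun i hi => hq i (mem_filter.1 hi).1
      refine (mul_le_mul_of_nonneg_right hH (pr_nonneg hp0 hp1 _ _)).trans ?_
      refine (pr_and_harris hp0 hp1 (hitAll_mono _ _) (hitAll_mono _ _)).trans
        (pr_mono hp0 hp1 fun S _ hS i hi => ?_)
      by_cases h : o ∈ C i
      · exact hS.1 i (mem_filter.2 ⟨hi, h⟩)
      · exact hS.2 i (mem_filter.2 ⟨hi, h⟩)
    have b1 := boost I C (fun i hi => hqC i (hI hi))
      ((card_le_card (filter_subset_filter _ hI)).trans (hLC o))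
    have b2 := boost J D (fun i hi => hqD i (hJ hi))
      ((card_le_card (filter_subset_filter _ hJ)).trans (hLD o))
    have hstep : wExp p G'' (fun S => indic (fun S => HitAll I C S ∧ HitAll J D S) (insert o S))
        ≤ pr p G'' (fun S => HitAll I' C S ∧ HitAll J' D S) := by
      refine wExp_mono hp0 hp1 fun S _ => indic_mono fun h => ⟨fun i hi => ?_, fun i hi => ?_⟩
      · obtain ⟨a, ha, haS⟩ := h.1 i (mem_filter.1 hi).1
        rcases mem_insert.1 haS with rfl | haS
        · exact absurd ha (mem_filter.1 hi).2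
        · exact ⟨a, ha, haS⟩
      · obtain ⟨a, ha, haS⟩ := h.2 i (mem_filter.1 hi).1
        rcases mem_insert.1 haS with rfl | haS
        · exact absurd ha (mem_filter.1 hi).2
        · exact ⟨a, ha, haS⟩
    rw [pr, ← insert_erase hoG, wExp_insert (notMem_erase o G'), ← hG'']
    set P' := pr p G (HitAll I' C) * pr p G (HitAll J' D) with hP'
    set P := pr p G (HitAll I C) * pr p G (HitAll J D) with hP
    have hb : P' ≤ P * (1 / q ^ (2 * L)) := by
      rw [mul_one_div, le_div_iff₀ (pow_pos hq0 _)]
      have := mul_le_mul b1 b2 (mul_nonneg (pow_nonneg hq0.le _) (pr_nonneg hp0 hp1 _ _)) hPI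
      rw [hP', hP, two_mul, pow_add]
      linarith
    have hKn : 0 ≤ K ^ O'.card := by positivity
    have hp' : 0 ≤ 1 - p := by linarith
    calc (1 - p) * wExp p G'' (indic fun S => HitAll I C S ∧ HitAll J D S)
          + p * wExp p G'' (fun S => indic (fun S => HitAll I C S ∧ HitAll J D S) (insert o S))
        ≤ (1 - p) * (K ^ O'.card * P) + p * (K ^ O'.card * P') :=
          add_le_add (mul_le_mul_of_nonneg_left h0 hp')
            (mul_le_mul_of_nonneg_left (hstep.trans h1) hp0)
      _ ≤ (1 - p) * (K ^ O'.card * P) + p * (K ^ O'.card * (P * (1 / q ^ (2 * L)))) := by gcongr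
      _ = K ^ (O'.card + 1) * P := by rw [pow_succ, hK]; ring

/-- Second moment with weights `1 / P(event)`. -/
lemma pr_exists_ge {G : Finset α} {Y : Finset κ} (hY : Y.Nonempty) {A : κ → Finset α → Prop}
    {m Γ : ℝ} (hm : 0 < m) (hΓ : 0 ≤ Γ) (hA : ∀ y ∈ Y, m ≤ pr p G (A y))
    (hAB : ∀ y ∈ Y, ∀ z ∈ Y, y ≠ z →
      pr p G (fun S => A y S ∧ A z S) ≤ Γ * (pr p G (A y) * pr p G (A z))) :
    1 / (1 / (m * Y.card) + Γ) ≤ pr p G (fun S => ∃ y ∈ Y, A y S) := by
  set P := fun y => pr p G (A y) with hPdef
  have hP : ∀ y ∈ Y, 0 < P y := fun y hy => hm.trans_le (hA y hy)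
  set V : Finset α → ℝ := fun S => ∑ y ∈ Y, (1 / P y) * indic (A y) S with hV
  set T : ℝ := (Y.card : ℝ) with hT
  have hTpos : 0 < T := by simpa [hT] using hY.card_pos
  have hEV : wExp p G V = T := by
    rw [hV, wExp_sum, hT]
    rw [sum_congr rfl fun y hy => (?_ : wExp p G (fun S => 1 / P y * indic (A y) S) = 1)]
    · simp
    · rw [wExp_const_mul]; exact one_div_mul_cancel (hP y hy).ne'
  have hEV2 : wExp p G (fun S => V S * V S) ≤ T / m + T * T * Γ := by
    have : (fun S => V S * V S) = fun S => ∑ y ∈ Y, ∑ z ∈ Y,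
        (1 / P y * (1 / P z)) * indic (fun S => A y S ∧ A z S) S := by
      funext S
      rw [hV, sum_mul_sum]
      refine sum_congr rfl fun y _ => sum_congr rfl fun z _ => ?_
      unfold indic
      by_cases a : A y S <;> by_cases b : A z S <;> simp [a, b]
    rw [this, wExp_sum]
    simp only [wExp_sum, wExp_const_mul]
    calc ∑ y ∈ Y, ∑ z ∈ Y, 1 / P y * (1 / P z) * wExp p G (indic fun S => A y S ∧ A z S)
        ≤ ∑ y ∈ Y, ∑ z ∈ Y, ((if y = z then 1 / m else 0) + Γ) := by
          refine sum_le_sum fun y hy => sum_le_sum fun z hz => ?_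
          have py := hP y hy
          have pz := hP z hz
          split_ifs with hyz
          · subst hyz
            have : wExp p G (indic fun S => A y S ∧ A y S) = P y := by
              simp only [and_self, hPdef, pr]
            rw [this, mul_assoc, one_div_mul_cancel py.ne', mul_one]
            have := one_div_le_one_div_of_le hm (hA y hy)
            simp only [hPdef] at this ⊢
            linarith
          · rw [zero_add, one_div_mul_one_div, one_div_mul_eq_div, div_le_iff₀ (mul_pos py pz)]
            exact hAB y hy z hz hyz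
      _ = T / m + T * T * Γ := by
          simp [sum_add_distrib, hT, nsmul_eq_mul]; ring
  set B := T / m + T * T * Γ with hB
  have hBpos : 0 < B := by positivity
  set l := T / B
  have hl : 0 ≤ l := by positivity
  have hmain : wExp p G (fun S => 2 * l * V S + (-(l * l)) * (V S * V S))
      ≤ pr p G (fun S => ∃ y ∈ Y, A y S) := by
    refine wExp_mono hp0 hp1 fun S _ => ?_
    by_cases h : ∃ y ∈ Y, A y S
    · simp only [indic, if_pos h]; nlinarith [sq_nonneg (l * V S - 1)]
    · have : V S = 0 := sum_eq_zero fun y hy => by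
        have : ¬ A y S := fun a => h ⟨y, hy, a⟩
        simp [indic, this]
      simp [indic, h, this]
  rw [wExp_add, wExp_const_mul, wExp_const_mul, hEV] at hmain
  refine le_trans ?_ hmain
  have h1 : 1 / (1 / (m * T) + Γ) = T * l := by simp only [l, hB]; field_simp
  have h2 : l * B = T := div_mul_cancel₀ _ hBpos.ne'
  rw [h1]
  nlinarith [mul_le_mul_of_nonneg_left hEV2 (mul_nonneg hl hl)]

/-- Many events living on disjoint sets all fail only with tiny probability. -/
lemma pr_forall_not_le {G : Finset α} (K : Finset κ) (R : κ → Finset α)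
    (A : κ → Finset α → Prop) {m : ℝ} (hA : ∀ k ∈ K, m ≤ pr p G (A k))
    (hdep : ∀ k ∈ K, ∀ S, A k S ↔ A k (S ∩ R k))
    (hd : ∀ k ∈ K, ∀ l ∈ K, k ≠ l → Disjoint (R k) (R l)) :
    pr p G (fun S => ∀ k ∈ K, ¬ A k S) ≤ Real.exp (-(K.card * m)) := by
  have h1 : indic (fun S => ∀ k ∈ K, ¬ A k S) = fun S => ∏ k ∈ K, indic (fun S => ¬ A k S) S := by
    funext S
    by_cases hc : ∀ k ∈ K, ¬ A k S
    · simp only [indic, if_pos hc]; exact (prod_eq_one fun k hk => if_pos (hc k hk)).symm
    · push Not at hc
      obtain ⟨k, hk, hkS⟩ := hc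
      rw [prod_eq_zero hk (by simp [indic, hkS])]
      simp only [indic]; rw [if_neg]; exact fun h => h k hk hkS
  rw [pr, h1, wExp_prod_of_depOn K R _ (fun k hk S => ?_) hd]
  · calc ∏ k ∈ K, wExp p G (indic fun S => ¬ A k S) ≤ ∏ _k ∈ K, Real.exp (-m) := by
          refine prod_le_prod (fun k _ => wExp_nonneg hp0 hp1 (indic_nonneg _)) fun k hk => ?_
          show pr p G (fun S => ¬ A k S) ≤ _
          rw [pr_not]
          linarith [hA k hk, Real.one_sub_le_exp_neg m]
      _ = Real.exp (-(K.card * m)) := by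
          rw [prod_const, ← Real.exp_nat_mul]; ring_nf
  · unfold indic
    congr 1
    exact propext (not_congr (hdep k hk S))

end

end Vale.Agent.P230
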