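import Vale.Agent.P230.Upper
import Vale.Agent.P230.Main

/-!
Assembly of Rogers' bound and the resulting order of the worst translative density.
-/

namespace Vale.Agent.P230

open Finset Real MeasureTheory Metric Filter
open scoped Classical ENNReal Pointwise Topology

variable {n : ℕ}

lemma rogers_count {W q Λ : ℝ} (hq : 0 < q) (hq1 : q ≤ 1) (hW : 0 ≤ W) (hΛ : 0 ≤ Λ)
    (hWq : W * q ≤ Real.exp Λ) :
    ∃ N : ℕ, (N : ℝ) + W * (1 - q) ^ N ≤ (Λ + 2) / q := by
  refine ⟨⌈Λ / q⌉₊, ?_⟩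
  have h1 := Nat.ceil_lt_add_one (show 0 ≤ Λ / q by positivity)
  have h2 : Λ ≤ (⌈Λ / q⌉₊ : ℝ) * q := by
    have := Nat.le_ceil (Λ / q); rwa [div_le_iff₀ hq] at this
  have h3 : (1 - q) ^ ⌈Λ / q⌉₊ ≤ Real.exp (-Λ) := by
    calc (1 - q) ^ ⌈Λ / q⌉₊ ≤ Real.exp (-q) ^ ⌈Λ / q⌉₊ :=
          pow_le_pow_left₀ (by linarith) (Real.one_sub_le_exp_neg q) _
      _ ≤ _ := by rw [← Real.exp_nat_mul, Real.exp_le_exp]; linarith
  have h4 : W * (1 - q) ^ ⌈Λ / q⌉₊ ≤ 1 / q := by
    refine (mul_le_mul_of_nonneg_left h3 hW).trans ?_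
    rw [le_div_iff₀ hq, Real.exp_neg, mul_right_comm, ← div_eq_mul_inv, div_le_one (Real.exp_pos _)]
    exact hWq
  have h5 : (1 : ℝ) ≤ 1 / q := by rw [le_div_iff₀ hq]; linarith
  have h6 : (Λ + 2) / q = Λ / q + 1 / q + 1 / q := by ring
  linarith

lemma log_facts (hn : 2 ≤ n) :
    1 ≤ (n : ℝ) * Real.log n ∧ 3 * (4 * (n : ℝ)) ^ n ≤ Real.exp (5 * ((n : ℝ) * Real.log n)) := by
  have hn2 : (2 : ℝ) ≤ n := by exact_mod_cast hn
  have hl2 : (0.69 : ℝ) ≤ Real.log 2 := by linarith [Real.log_two_gt_d9]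
  have hln : Real.log 2 ≤ Real.log n := Real.log_le_log (by norm_num) hn2
  have h1 : 1 ≤ (n : ℝ) * Real.log n := by nlinarith
  refine ⟨h1, ?_⟩
  have h3 : Real.log 3 ≤ 2 := by
    linarith [Real.log_le_sub_one_of_pos (show (0:ℝ) < 3 by norm_num)]
  have h4 : Real.log 4 ≤ 2 * Real.log n := by
    rw [show (4 : ℝ) = 2 ^ 2 by norm_num, Real.log_pow]; push_cast; linarith
  rw [← Real.log_le_iff_le_exp (by positivity), Real.log_mul (by norm_num) (by positivity),
    Real.log_pow, Real.log_mul (by norm_num) (by positivity)]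
  nlinarith [mul_le_mul_of_nonneg_left h4 (show (0:ℝ) ≤ n by positivity)]

lemma pow_facts (hn : 2 ≤ n) :
    (1 + 1 / (n : ℝ)) ^ n ≤ 3 ∧ 1 / 8 ≤ (1 - 1 / (n : ℝ)) ^ n := by
  have hn2 : (2 : ℝ) ≤ n := by exact_mod_cast hn
  have hne : (n : ℝ) * (1 / n) = 1 := by field_simp
  have he := Real.exp_one_lt_d9
  constructor
  · calc (1 + 1 / (n : ℝ)) ^ n ≤ Real.exp (1 / n) ^ n :=
          pow_le_pow_left₀ (by positivity) (by linarith [Real.add_one_le_exp (1 / (n : ℝ))]) n
      _ ≤ 3 := by rw [← Real.exp_nat_mul, hne]; linarith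
  · have h2 : 1 / (n : ℝ) ≤ 1 / 2 := one_div_le_one_div_of_le two_pos hn2
    calc (1 : ℝ) / 8 ≤ Real.exp (-(2 * (1 / (n : ℝ)))) ^ n := by
          rw [← Real.exp_nat_mul, show (n : ℝ) * -(2 * (1 / n)) = -(1 + 1) by linarith,
            Real.exp_neg, Real.exp_add, one_div, inv_le_inv₀ (by norm_num) (by positivity)]
          nlinarith [Real.exp_pos 1]
      _ ≤ _ := pow_le_pow_left₀ (Real.exp_nonneg _) (exp_neg_le_one_sub (by positivity) h2) n

/-- Rogers' bound. -/
theorem rogers (hn : 2 ≤ n) {K : Set (Euc n)} (hK : IsConvexBody K) :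
    thetaT K ≤ ENNReal.ofReal (168 * n * Real.log n) := by
  obtain ⟨hconv, hcpt, hint⟩ := hK
  have hn2 : (2 : ℝ) ≤ n := by exact_mod_cast hn
  have hcl := hcpt.isClosed
  set v := (volume K).toReal with hv_def
  have hvol : volume K = ENNReal.ofReal v := (ENNReal.ofReal_toReal hcpt.measure_lt_top.ne).symm
  have hv : 0 < v := ENNReal.toReal_pos
    (ne_of_gt (lt_of_lt_of_le (isOpen_interior.measure_pos volume hint)
      (measure_mono interior_subset))) hcpt.measure_lt_top.ne
  obtain ⟨p, hp, hsvol⟩ := exists_symmetric_centre ⟨hconv, hcpt, hint⟩ hv hvol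
  set S : Set (Euc n) := {u | p + u ∈ K ∧ p - u ∈ K} with hS
  obtain ⟨R0, hR0⟩ := hcpt.isBounded.subset_closedBall 0
  have hR : ∀ k ∈ K, ∀ i, |k i| ≤ R0 := fun k hk i =>
    (abs_apply_le_norm k i).trans (mem_closedBall_zero_iff.1 (hR0 hk))
  have hR00 : 0 ≤ R0 := le_trans (norm_nonneg p) (mem_closedBall_zero_iff.1 (hR0 hp))
  set D := 2 * R0 + 1 with hD
  have hD1 : 1 ≤ D := by linarith
  have hSD : ∀ u ∈ S, ∀ i, |u i| ≤ D := by
    intro u hu i
    have h1 := hR _ hu.1 i
    have h2 := hR _ hu.2 i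
    have e1 : (p + u) i = p i + u i := rfl
    have e2 : (p - u) i = p i - u i := rfl
    rw [e1, abs_le] at h1
    rw [e2, abs_le] at h2
    rw [abs_le]; constructor <;> linarith
  have hSc : Convex ℝ S := by
    have h1 : S = (fun u => p + u) ⁻¹' K ∩ (fun u => u + -p) ⁻¹' (-K) := by
      ext u; simp only [hS, Set.mem_ofPred_eq, Set.mem_inter_iff, Set.mem_preimage, Set.mem_neg]
      rw [show -(u + -p) = p - u by abel]
    rw [h1]
    exact (hconv.translate_preimage_right p).inter (hconv.neg.translate_preimage_left (-p))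
  have hSm : MeasurableSet S :=
    ((hcl.preimage (continuous_const.add continuous_id)).inter
      (hcl.preimage (continuous_const.sub continuous_id))).measurableSet
  set ε := 1 / (n : ℝ) with hε
  have hεpos : 0 < ε := by positivity
  have hε2 : ε ≤ 1 / 2 := one_div_le_one_div_of_le two_pos hn2
  set b := 2 * (n : ℝ) * D with hb
  have hbpos : 0 < b := by positivity
  obtain ⟨P, hPg, hPc, hPcov⟩ := exists_net (S := S) hSc hSm
    (fun u hu => by
      refine ⟨?_, ?_⟩
      · rw [← sub_eq_add_neg]; exact hu.2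
      · rw [sub_neg_eq_add]; exact hu.1)
    ⟨by simpa using hp, by simpa using hp⟩ (sv := v / 2 ^ n) (D := D) (b := b) (ε := ε)
    (by positivity) hsvol hSD hbpos hεpos (by linarith) (by linarith)
  set A : Set (Euc n) := {u | p + (1 - ε)⁻¹ • u ∈ K} with hA
  have hAm : MeasurableSet A :=
    (hcl.preimage (continuous_const.add (continuous_const_smul ((1 - ε)⁻¹)))).measurableSet
  have hvA : volume A = ENNReal.ofReal ((1 - ε) ^ n * v) := by
    have e1 : A = (fun u : Euc n => (1 - ε)⁻¹ • u) ⁻¹' ((fun u => p + u) ⁻¹' K) := rfl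
    rw [e1, Measure.addHaar_preimage_smul volume (inv_ne_zero (by linarith)),
      finrank_euclideanSpace_fin, measure_preimage_add, inv_pow, inv_inv,
      abs_of_pos (pow_pos (by linarith) n), hvol, ← ENNReal.ofReal_mul (pow_nonneg (by linarith) n)]
  have hAD : ∀ u ∈ A, ∀ i, |u i| < D := by
    intro u hu i
    have h1 := hR _ hu i
    have h2 := hR _ hp i
    have e1 : (p + (1 - ε)⁻¹ • u) i = p i + (1 - ε)⁻¹ * u i := rfl
    rw [e1, abs_le] at h1
    rw [abs_le] at h2
    have h3 : u i = (1 - ε) * ((1 - ε)⁻¹ * u i) := (mul_inv_cancel_left₀ (by linarith) _).symm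
    rw [h3, abs_mul, abs_of_pos (by linarith : (0:ℝ) < 1 - ε)]
    have h4 : |(1 - ε)⁻¹ * u i| ≤ 2 * R0 := by rw [abs_le]; constructor <;> linarith
    calc (1 - ε) * |(1 - ε)⁻¹ * u i| ≤ 1 * (2 * R0) :=
          mul_le_mul (by linarith) h4 (abs_nonneg _) zero_le_one
      _ < D := by linarith
  set B := box (n := n) (fun _ => -D) (fun _ => b + D) with hB
  have hvB : volume B = ENNReal.ofReal ((b + 2 * D) ^ n) := by
    rw [hB, volume_box, Finset.prod_const, Finset.card_univ, Fintype.card_fin,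
      ← ENNReal.ofReal_pow (by linarith)]
    congr 2; ring
  have hq1 : (1 - ε) ^ n * v ≤ (b + 2 * D) ^ n := by
    have hsub : A ⊆ B := fun u hu i => by
      have := abs_lt.1 (hAD u hu i)
      exact ⟨this.1.le, by linarith⟩
    have := measure_mono (μ := volume) hsub
    rwa [hvA, hvB, ENNReal.ofReal_le_ofReal_iff (by positivity)] at this
  set q := (1 - ε) ^ n * v / (b + 2 * D) ^ n with hq
  have hqpos : 0 < q := div_pos (mul_pos (pow_pos (by linarith) n) hv) (by positivity)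
  obtain ⟨hl1, hl3⟩ := log_facts hn
  obtain ⟨hp3, hp8⟩ := pow_facts hn
  set W := (b + 2 * D + 1) ^ n / ((ε / 2) ^ n * (v / 2 ^ n)) with hW
  have hWq : W * q ≤ Real.exp (5 * ((n : ℝ) * Real.log n)) := by
    refine le_trans ?_ hl3
    have e1 : (ε / 2) ^ n * (v / 2 ^ n) = v / (4 * (n : ℝ)) ^ n := by
      rw [hε, div_pow, one_div_pow, mul_pow, show (4 : ℝ) ^ n = 2 ^ n * 2 ^ n by
        rw [← mul_pow]; norm_num]
      field_simp
    have e2 : ((b + 2 * D + 1) / (b + 2 * D)) ^ n ≤ 3 := by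
      refine le_trans (pow_le_pow_left₀ (by positivity) ?_ n) hp3
      rw [div_le_iff₀ (by positivity)]
      have : (1 + 1 / (n : ℝ)) * (b + 2 * D) = b + 2 * D + (b + 2 * D) / n := by ring
      rw [this]
      have : (1 : ℝ) ≤ (b + 2 * D) / n := by
        rw [le_div_iff₀ (by linarith), hb]; nlinarith
      linarith
    calc W * q = ((b + 2 * D + 1) / (b + 2 * D)) ^ n * (4 * (n : ℝ)) ^ n * (1 - ε) ^ n := by
          rw [hW, hq, e1, div_pow]; field_simp
      _ ≤ 3 * (4 * (n : ℝ)) ^ n * 1 := by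
          refine mul_le_mul (mul_le_mul_of_nonneg_right e2 (by positivity))
            (pow_le_one₀ (by linarith) (by linarith)) (pow_nonneg (by linarith) n) (by positivity)
      _ = _ := mul_one _
  obtain ⟨N, hN⟩ := rogers_count (W := W) hqpos (by rw [hq, div_le_one (by positivity)]; exact hq1)
    (by positivity) (by positivity) hWq
  obtain ⟨Z, U, hZc, hZB, hUP, hUc, hcovP⟩ := greedy hAm (measurableSet_box _ _) hvA hvB
    (by positivity) (mul_nonneg (pow_nonneg (by linarith) n) hv.le) hq1 P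
    (fun p' hp' z hz i => by
      have h1 := abs_lt.1 (hAD _ hz i)
      have e1 : (p' - z) i = p' i - z i := rfl
      rw [e1] at h1
      obtain ⟨h2, h3⟩ := hPg p' hp' i
      constructor <;> linarith) N
  set C := (Z ∪ U).image fun z => z - p with hC
  have hCb : ∀ z ∈ C, ∀ i, |z i| ≤ b + 2 * D := by
    intro z hz i
    obtain ⟨w, hw, rfl⟩ := Finset.mem_image.1 hz
    have hwb : -D ≤ w i ∧ w i < b + D := by
      rcases Finset.mem_union.1 hw with h | h
      · exact hZB w h i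
      · obtain ⟨h1, h2⟩ := hPg w (hUP h) i
        constructor <;> linarith
    have h2 := abs_le.1 (hR p hp i)
    have e1 : (w - p) i = w i - p i := rfl
    rw [e1, abs_le]; constructor <;> linarith
  obtain ⟨hXlf, hXd⟩ := periodic_density hbpos (by positivity) C hCb
  set X : Set (Euc n) := {x | ∃ z ∈ C, ∃ v : Fin n → ℤ, x = z + pt b v}
  have hcov : K + X = Set.univ := by
    refine Set.eq_univ_of_forall fun y => ?_
    set m := rnd b y
    have hw : ∀ i, 0 ≤ (y - pt b m) i ∧ (y - pt b m) i < b := by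
      intro i
      obtain ⟨h1, h2⟩ := mem_cell_rnd hbpos y i
      have e1 : (y - pt b m) i = y i - b * m i := rfl
      rw [e1]; constructor <;> linarith
    obtain ⟨p', hp', hp'S⟩ := hPcov _ hw
    obtain ⟨z, hz, hzA⟩ : ∃ z ∈ Z ∪ U, p' - z ∈ A := by
      rcases hcovP p' hp' with h | ⟨z, hz, hzA⟩
      · exact ⟨p', Finset.mem_union_right _ h, by simpa [hA] using hp⟩
      · exact ⟨z, Finset.mem_union_left _ hz, hzA⟩
    refine Set.mem_add.2 ⟨p + (y - pt b m - z), ?_, z - p + pt b m,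
      ⟨z - p, Finset.mem_image_of_mem _ hz, m, rfl⟩, by abel⟩
    have h2 := hconv hzA hp'S.1 (show (0:ℝ) ≤ 1 - ε by linarith) hεpos.le (by ring)
    convert h2 using 1
    rw [smul_add, smul_add, smul_smul, smul_smul, mul_inv_cancel₀ (by linarith),
      mul_one_div_cancel hεpos.ne', one_smul, one_smul, sub_smul, one_smul]
    abel
  have hle : thetaT K ≤ volume K * upperDensity X :=
    iInf_le_of_le X (iInf_le_of_le hXlf (iInf_le_of_le hcov le_rfl))
  refine hle.trans ?_
  refine (mul_le_mul_right hXd _).trans ?_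
  rw [hvol, ← ENNReal.ofReal_mul hv.le]
  refine ENNReal.ofReal_le_ofReal ?_
  have hcount : (C.card : ℝ) ≤ (5 * ((n : ℝ) * Real.log n) + 2) / q := by
    refine le_trans ?_ hN
    calc (C.card : ℝ) ≤ (Z.card : ℝ) + U.card := by
          exact_mod_cast Finset.card_image_le.trans (Finset.card_union_le Z U)
      _ ≤ _ := add_le_add (Nat.cast_le.2 hZc) (hUc.trans
          (mul_le_mul_of_nonneg_right hPc
            (pow_nonneg (sub_nonneg.2 (by rw [div_le_one (by positivity)]; exact hq1)) N)))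
  have hbD : (b + 2 * D) ^ n ≤ 3 * b ^ n := by
    have : b + 2 * D = (1 + 1 / (n : ℝ)) * b := by rw [hb]; field_simp
    rw [this, mul_pow]
    exact mul_le_mul_of_nonneg_right hp3 (by positivity)
  have hδ : 0 < (1 - ε) ^ n := pow_pos (by linarith) n
  calc v * ((C.card : ℝ) / b ^ n)
      ≤ v * ((5 * ((n : ℝ) * Real.log n) + 2) / q / b ^ n) := by gcongr
    _ = (5 * ((n : ℝ) * Real.log n) + 2) * (b + 2 * D) ^ n / ((1 - ε) ^ n * b ^ n) := by
        rw [hq]; field_simp
    _ ≤ (7 * ((n : ℝ) * Real.log n)) * (3 * b ^ n) / ((1 / 8) * b ^ n) := by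
        gcongr
        · linarith
    _ = 168 * n * Real.log n := by field_simp; ring

theorem ThetaT_le (hn : 2 ≤ n) : ThetaT n ≤ ENNReal.ofReal (168 * n * Real.log n) :=
  iSup₂_le fun _ hK => rogers hn hK

end Vale.Agent.P230
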