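import Vale.Agent.P230.Density

/-!
Rogers' upper bound: every convex body has translative covering density O(n log n).
-/

namespace Vale.Agent.P230

open Finset Real MeasureTheory Metric Filter
open scoped Classical ENNReal Pointwise Topology

variable {n : ℕ}

lemma measurableSet_preimage_closed {K : Set (Euc n)} (hK : IsClosed K) (w : Euc n) :
    MeasurableSet {u : Euc n | w - u ∈ K} :=
  (hK.preimage (continuous_const.sub continuous_id)).measurableSet

lemma exists_symmetric_centre {K : Set (Euc n)} (hK : IsConvexBody K) {v : ℝ} (hv : 0 < v)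
    (hvol : volume K = ENNReal.ofReal v) :
    ∃ p ∈ K, ENNReal.ofReal (v / 2 ^ n) ≤ volume {u : Euc n | p + u ∈ K ∧ p - u ∈ K} := by
  obtain ⟨hconv, hcpt, hint⟩ := hK
  have hcl := hcpt.isClosed
  set E : Set (Euc n × Euc n) := {t | t.2 ∈ K ∧ t.1 - t.2 ∈ K} with hE
  have hEm : MeasurableSet E :=
    ((hcl.preimage continuous_snd).inter
      (hcl.preimage (continuous_fst.sub continuous_snd))).measurableSet
  set f : Euc n → ℝ≥0∞ := fun w => volume (Prod.mk w ⁻¹' E) with hf
  have htot : ∫⁻ w, f w = ENNReal.ofReal v * ENNReal.ofReal v := by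
    rw [hf, ← Measure.prod_apply hEm, Measure.prod_apply_symm hEm]
    have : ∀ u, volume ((fun w => (w, u)) ⁻¹' E) = K.indicator (fun _ => volume K) u := by
      intro u
      by_cases hu : u ∈ K
      · rw [Set.indicator_of_mem hu, ← measure_preimage_add_right volume (-u) K]
        congr 1; ext w; simp [hE, hu, sub_eq_add_neg]
      · rw [Set.indicator_of_notMem hu]
        refine measure_mono_null (t := ∅) (fun w hw => absurd hw.1 hu) measure_empty
    rw [lintegral_congr this, lintegral_indicator hcl.measurableSet, setLIntegral_const, hvol]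
  have hsupp : ∀ w, w ∉ (2 : ℝ) • K → f w = 0 := by
    intro w hw
    refine measure_mono_null (t := ∅) (fun u hu => ?_) measure_empty
    refine absurd ?_ hw
    rw [Set.mem_smul_set_iff_inv_smul_mem₀ two_ne_zero]
    have := hconv hu.1 hu.2 (show (0:ℝ) ≤ 1 / 2 by norm_num) (show (0:ℝ) ≤ 1 / 2 by norm_num)
      (by norm_num)
    rwa [← smul_add, add_sub_cancel, one_div] at this
  have h2K : volume ((2 : ℝ) • K) = ENNReal.ofReal (2 ^ n * v) := by
    rw [Measure.addHaar_smul_of_nonneg volume zero_le_two, hvol, ← ENNReal.ofReal_mul (by positivity)]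
    simp
  have hset : ∫⁻ w in (2 : ℝ) • K, f w = ENNReal.ofReal v * ENNReal.ofReal v := by
    rw [← htot, ← lintegral_indicator (hcpt.smul (2 : ℝ)).measurableSet]
    refine lintegral_congr fun w => ?_
    by_cases hw : w ∈ (2 : ℝ) • K
    · rw [Set.indicator_of_mem hw]
    · rw [Set.indicator_of_notMem hw, hsupp w hw]
  obtain ⟨w, hw, hle⟩ := exists_setLAverage_le (μ := volume) (s := (2 : ℝ) • K) (f := f)
    (by rw [h2K, ne_eq, ENNReal.ofReal_eq_zero, not_le]; positivity)
    (hcpt.smul (2 : ℝ)).measurableSet.nullMeasurableSet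
    (by rw [hset]; exact ENNReal.mul_ne_top ENNReal.ofReal_ne_top ENNReal.ofReal_ne_top)
  rw [setLAverage_eq, hset, h2K, ← ENNReal.ofReal_mul hv.le,
    ← ENNReal.ofReal_div_of_pos (by positivity)] at hle
  refine ⟨(1 / 2 : ℝ) • w, ?_, ?_⟩
  · rw [Set.mem_smul_set_iff_inv_smul_mem₀ two_ne_zero] at hw
    rwa [one_div]
  · refine le_trans (le_of_eq ?_) (hle.trans (le_of_eq ?_))
    · congr 1; field_simp
    · rw [hf]
      simp only
      rw [← measure_preimage_add volume ((1 / 2 : ℝ) • w) (Prod.mk w ⁻¹' E)]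
      congr 1; ext u
      simp only [hE, Set.mem_preimage, Set.mem_ofPred_eq]
      rw [show w - ((1 / 2 : ℝ) • w + u) = (1 / 2 : ℝ) • w - u by
        rw [show (w : Euc n) - ((1 / 2 : ℝ) • w + u) = ((1 : ℝ) • w - (1 / 2 : ℝ) • w) - u by
          rw [one_smul]; abel, ← sub_smul]; norm_num]

lemma periodic_density {b D : ℝ} (hb : 0 < b) (hD : 0 ≤ D) (C : Finset (Euc n))
    (hC : ∀ z ∈ C, ∀ i, |z i| ≤ D) :
    let X : Set (Euc n) := {x | ∃ z ∈ C, ∃ v : Fin n → ℤ, x = z + pt b v}
    IsLocallyFiniteSet X ∧ upperDensity X ≤ ENNReal.ofReal ((C.card : ℝ) / b ^ n) := by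
  intro X
  have hkey : ∀ R : ℝ, 0 ≤ R → ∃ F : Finset (Euc n), X ∩ cube n R ⊆ ↑F ∧
      (F.card : ℝ) ≤ (C.card : ℝ) * (2 * ((R + D) / b) + 3) ^ n := by
    intro R hR
    set m := ⌈(R + D) / b⌉ with hm
    have hm0 : 0 ≤ m := Int.ceil_nonneg (by positivity)
    refine ⟨(C ×ˢ Fintype.piFinset (fun _ : Fin n => Finset.Icc (-m) m)).image
      (fun t => t.1 + pt b t.2), ?_, ?_⟩
    · rintro x ⟨⟨z, hz, v, rfl⟩, hx⟩
      simp only [Finset.coe_image, Set.mem_image, Finset.mem_coe, Finset.mem_product,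
        Fintype.mem_piFinset, Finset.mem_Icc]
      refine ⟨(z, v), ⟨hz, fun i => ?_⟩, rfl⟩
      have h1 : |z i + b * v i| ≤ R := hx i
      have h2 := hC z hz i
      have h3 : |b * (v i : ℝ)| ≤ R + D := by
        calc |b * (v i : ℝ)| = |(z i + b * v i) - z i| := by rw [add_sub_cancel_left]
          _ ≤ |z i + b * v i| + |z i| := abs_sub _ _
          _ ≤ R + D := by linarith
      rw [abs_mul, abs_of_pos hb, mul_comm, ← le_div_iff₀ hb] at h3
      have h4 := h3.trans (Int.le_ceil _)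
      rw [abs_le, ← hm] at h4
      exact ⟨by exact_mod_cast h4.1, by exact_mod_cast h4.2⟩
    · refine le_trans (Nat.cast_le.2 Finset.card_image_le) ?_
      rw [Finset.card_product, Fintype.card_piFinset, Finset.prod_const, Finset.card_univ,
        Fintype.card_fin, Int.card_Icc, Nat.cast_mul, Nat.cast_pow]
      refine mul_le_mul_of_nonneg_left (pow_le_pow_left₀ (Nat.cast_nonneg _) ?_ n) (Nat.cast_nonneg _)
      have h5 : (((m + 1 - -m).toNat : ℕ) : ℤ) = m + 1 - -m := Int.toNat_of_nonneg (by omega)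
      have h6 : (((m + 1 - -m).toNat : ℕ) : ℝ) = (m : ℝ) + 1 - -(m : ℝ) := by exact_mod_cast h5
      rw [h6]
      have := Int.ceil_lt_add_one ((R + D) / b)
      rw [← hm] at this
      linarith
  constructor
  · intro s hs
    obtain ⟨r, hr⟩ := hs.subset_closedBall 0
    obtain ⟨F, hF, -⟩ := hkey (max r 0) (le_max_right _ _)
    refine F.finite_toSet.subset fun x hx => hF ⟨hx.1, fun i => ?_⟩
    exact (abs_apply_le_norm x i).trans ((mem_closedBall_zero_iff.1 (hr hx.2)).trans (le_max_left _ _))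
  · set g := fun R : ℝ => ENNReal.ofReal ((C.card : ℝ) * (1 / b + (D / b + 2) / R) ^ n)
    have hg : Tendsto g atTop (𝓝 (ENNReal.ofReal ((C.card : ℝ) / b ^ n))) := by
      refine ENNReal.tendsto_ofReal ?_
      have h1 : Tendsto (fun R : ℝ => (D / b + 2) / R) atTop (𝓝 0) :=
        tendsto_const_nhds.div_atTop tendsto_id
      have h2 := ((h1.const_add (1 / b)).pow n).const_mul (C.card : ℝ)
      simpa [div_eq_mul_inv, inv_pow] using h2
    rw [← hg.limsup_eq]
    refine limsup_le_limsup ?_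
    filter_upwards [eventually_gt_atTop (0 : ℝ)] with R hR
    obtain ⟨F, hF, hFc⟩ := hkey R hR.le
    rw [ENNReal.div_le_iff (by rw [ne_eq, ENNReal.ofReal_eq_zero, not_le]; positivity)
      ENNReal.ofReal_ne_top, ← ENNReal.ofReal_mul (by positivity)]
    refine (ENat.toENNReal_mono (Set.encard_mono hF)).trans ?_
    rw [Set.encard_coe_eq_coe_finsetCard, ENat.toENNReal_coe, ← ENNReal.ofReal_natCast]
    refine ENNReal.ofReal_le_ofReal (hFc.trans ?_)
    rw [mul_assoc, ← mul_pow]
    refine mul_le_mul_of_nonneg_left (pow_le_pow_left₀ (by positivity) ?_ n) (Nat.cast_nonneg _)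
    have : (1 / b + (D / b + 2) / R) * (2 * R) = 2 * ((R + D) / b) + 4 := by field_simp; ring
    linarith

/-- One greedy step. -/
lemma greedy_step {A : Set (Euc n)} {B : Set (Euc n)} (hA : MeasurableSet A) (hB : MeasurableSet B)
    {vA vB : ℝ} (hvA : volume A = ENNReal.ofReal vA) (hvB : volume B = ENNReal.ofReal vB)
    (hB0 : 0 < vB) (hA0 : 0 ≤ vA) (P : Finset (Euc n)) (hsub : ∀ p ∈ P, ∀ z, p - z ∈ A → z ∈ B) :
    ∃ z ∈ B, (P.card : ℝ) * (vA / vB) ≤ ((P.filter fun p => p - z ∈ A).card : ℝ) := by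
  set f : Euc n → ℝ≥0∞ := fun z => ∑ p ∈ P, {z | p - z ∈ A}.indicator (fun _ => 1) z with hf
  have hm : ∀ p : Euc n, MeasurableSet {z : Euc n | p - z ∈ A} := fun p =>
    (measurable_const.sub measurable_id) hA
  have hint : ∫⁻ z in B, f z = (P.card : ℝ≥0∞) * ENNReal.ofReal vA := by
    simp only [hf]
    rw [lintegral_finsetSum _ fun p _ => measurable_const.indicator (hm p)]
    rw [Finset.sum_congr rfl (g := fun _ => ENNReal.ofReal vA) fun p hp => ?_]
    · rw [Finset.sum_const, nsmul_eq_mul]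
    · rw [lintegral_indicator (hm p), setLIntegral_const, one_mul, Measure.restrict_apply (hm p),
        Set.inter_eq_left.2 (show {z | p - z ∈ A} ⊆ B from fun z hz => hsub p hp z hz), ← hvA]
      exact (Measure.measurePreserving_sub_left volume p).measure_preimage hA.nullMeasurableSet
  obtain ⟨z, hz, hle⟩ := exists_setLAverage_le (μ := volume) (s := B) (f := f)
    (by rw [hvB, ne_eq, ENNReal.ofReal_eq_zero, not_le]; exact hB0) hB.nullMeasurableSet
    (by rw [hint]; exact ENNReal.mul_ne_top (ENNReal.natCast_ne_top _) ENNReal.ofReal_ne_top)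
  refine ⟨z, hz, ?_⟩
  have hfz : f z = ((P.filter fun p => p - z ∈ A).card : ℝ≥0∞) := by
    simp only [hf]
    rw [← Finset.sum_boole]
    exact Finset.sum_congr rfl fun p _ => by simp [Set.indicator]
  rw [setLAverage_eq, hint, hvB, hfz, ← ENNReal.ofReal_natCast, ← ENNReal.ofReal_natCast,
    ← ENNReal.ofReal_mul (Nat.cast_nonneg _), ← ENNReal.ofReal_div_of_pos hB0,
    ENNReal.ofReal_le_ofReal_iff (Nat.cast_nonneg _), mul_div_assoc] at hle
  exact hle

lemma greedy {A B : Set (Euc n)} (hA : MeasurableSet A) (hB : MeasurableSet B)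
    {vA vB : ℝ} (hvA : volume A = ENNReal.ofReal vA) (hvB : volume B = ENNReal.ofReal vB)
    (hB0 : 0 < vB) (hA0 : 0 ≤ vA) (hq : vA ≤ vB) (P : Finset (Euc n))
    (hsub : ∀ p ∈ P, ∀ z, p - z ∈ A → z ∈ B) (N : ℕ) :
    ∃ Z U : Finset (Euc n), Z.card ≤ N ∧ (∀ z ∈ Z, z ∈ B) ∧ U ⊆ P ∧
      (U.card : ℝ) ≤ (P.card : ℝ) * (1 - vA / vB) ^ N ∧
      ∀ p ∈ P, p ∈ U ∨ ∃ z ∈ Z, p - z ∈ A := by
  induction N with
  | zero => exact ⟨∅, P, by simp, by simp, subset_rfl, by simp, fun p hp => Or.inl hp⟩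
  | succ N ih =>
    obtain ⟨Z, U, hZ, hZB, hU, hUc, hcov⟩ := ih
    obtain ⟨z, hz, hzc⟩ := greedy_step hA hB hvA hvB hB0 hA0 U fun p hp => hsub p (hU hp)
    refine ⟨insert z Z, U.filter fun p => ¬ p - z ∈ A, ?_, ?_, (Finset.filter_subset _ _).trans hU,
      ?_, ?_⟩
    · exact (Finset.card_insert_le _ _).trans (by omega)
    · intro w hw
      rcases Finset.mem_insert.1 hw with h | h
      · rw [h]; exact hz
      · exact hZB w h
    · have h1 : ((U.filter fun p => p - z ∈ A).card : ℝ) +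
          ((U.filter fun p => ¬ p - z ∈ A).card : ℝ) = U.card := by
        exact_mod_cast Finset.card_filter_add_card_filter_not _
      have h2 : 0 ≤ 1 - vA / vB := by
        rw [sub_nonneg, div_le_one hB0]; exact hq
      rw [pow_succ, ← mul_assoc]
      nlinarith [mul_le_mul_of_nonneg_right hUc h2]
    · intro p hp
      rcases hcov p hp with h | ⟨w, hw, hwA⟩
      · by_cases hpz : p - z ∈ A
        · exact Or.inr ⟨z, Finset.mem_insert_self _ _, hpz⟩
        · exact Or.inl (Finset.mem_filter.2 ⟨h, hpz⟩)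
      · exact Or.inr ⟨w, Finset.mem_insert_of_mem hw, hwA⟩

lemma exists_net {S : Set (Euc n)} (hS : Convex ℝ S) (hSm : MeasurableSet S)
    (hsym : ∀ u ∈ S, -u ∈ S) (h0 : (0 : Euc n) ∈ S) {sv D b ε : ℝ} (hsv : 0 < sv)
    (hvol : ENNReal.ofReal sv ≤ volume S) (hD : ∀ u ∈ S, ∀ i, |u i| ≤ D) (hb : 0 < b)
    (hε : 0 < ε) (hε1 : ε ≤ 1) (hD0 : 0 ≤ D) :
    ∃ P : Finset (Euc n), (∀ p ∈ P, ∀ i, 0 ≤ p i ∧ p i < b) ∧
      (P.card : ℝ) ≤ (b + 2 * D + 1) ^ n / ((ε / 2) ^ n * sv) ∧
      ∀ y : Euc n, (∀ i, 0 ≤ y i ∧ y i < b) → ∃ p ∈ P, (1 / ε) • (y - p) ∈ S := by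
  set W := (b + 2 * D + 1) ^ n / ((ε / 2) ^ n * sv) with hW
  set good : Euc n → Prop := fun p => ∀ i, 0 ≤ p i ∧ p i < b
  set T : Euc n → Set (Euc n) := fun p => {u | (2 / ε) • (u - p) ∈ S} with hT
  have hTm : ∀ p, MeasurableSet (T p) := fun p =>
    ((measurable_id.sub_const p).const_smul (2 / ε)) hSm
  have hbd : ∀ P : Finset (Euc n), (∀ p ∈ P, good p) →
      (∀ p ∈ P, ∀ q ∈ P, p ≠ q → Disjoint (T p) (T q)) → (P.card : ℝ) ≤ W := by
    intro P hg hd
    have hvT : ∀ p, ENNReal.ofReal ((ε / 2) ^ n * sv) ≤ volume (T p) := by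
      intro p
      have e1 : T p = (fun u => u + -p) ⁻¹' ((fun u : Euc n => (2 / ε) • u) ⁻¹' S) := by
        ext u; simp [hT, sub_eq_add_neg]
      rw [e1, measure_preimage_add_right, Measure.addHaar_preimage_smul volume (by positivity),
        finrank_euclideanSpace_fin, abs_of_pos (by positivity), ← inv_pow, inv_div,
        ENNReal.ofReal_mul (by positivity)]
      exact mul_le_mul_right hvol _
    have hsub : (⋃ p ∈ P, T p) ⊆ box (fun _ => -(D + 1 / 2)) (fun _ => b + D + 1 / 2) := by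
      intro u hu i
      obtain ⟨p, hp, hu⟩ := Set.mem_iUnion₂.1 hu
      have h1 := hD _ hu i
      have h2 : ((2 / ε) • (u - p)) i = (2 / ε) * (u i - p i) := rfl
      rw [h2, abs_mul, abs_of_pos (by positivity : (0:ℝ) < 2 / ε), div_mul_eq_mul_div,
        div_le_iff₀ hε] at h1
      have h3 : |u i - p i| ≤ D := by nlinarith [abs_nonneg (u i - p i)]
      rw [abs_le] at h3
      obtain ⟨h4, h5⟩ := hg p hp i
      constructor <;> linarith
    have h := measure_mono (μ := volume) hsub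
    rw [measure_biUnion_finset (fun p hp q hq hpq => hd p hp q hq hpq) (fun p _ => hTm p),
      volume_box] at h
    have h' := (Finset.card_nsmul_le_sum P _ _ fun p _ => hvT p).trans h
    rw [nsmul_eq_mul, Finset.prod_const, Finset.card_univ, Fintype.card_fin,
      ← ENNReal.ofReal_pow (by linarith), ← ENNReal.ofReal_natCast,
      ← ENNReal.ofReal_mul (Nat.cast_nonneg _), ENNReal.ofReal_le_ofReal_iff (pow_nonneg (by linarith) _),
      ← le_div_iff₀ (by positivity)] at h'
    refine h'.trans (le_of_eq ?_)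
    rw [hW]; congr 2; ring
  set s : Set ℕ := {m | ∃ P : Finset (Euc n), P.card = m ∧ (∀ p ∈ P, good p) ∧
    ∀ p ∈ P, ∀ q ∈ P, p ≠ q → Disjoint (T p) (T q)} with hs
  have hne : s.Nonempty := ⟨0, ∅, by simp⟩
  have hba : BddAbove s := ⟨⌊W⌋₊, by
    rintro m ⟨P, rfl, hg, hd⟩
    exact Nat.le_floor (hbd P hg hd)⟩
  obtain ⟨P, hPc, hPg, hPd⟩ := Nat.sSup_mem hne hba
  refine ⟨P, hPg, hbd P hPg hPd, fun y hy => ?_⟩
  by_contra hno
  push Not at hno
  have hyn : y ∉ P := fun h => hno y h (by simpa using h0)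
  have hdy : ∀ p ∈ P, Disjoint (T y) (T p) := by
    intro p hp
    rw [Set.disjoint_left]
    intro u hu1 hu2
    refine hno p hp ?_
    have h1 : -((2 / ε) • (u - y)) ∈ S := hsym _ hu1
    have h2 := hS h1 hu2 (show (0:ℝ) ≤ 1 / 2 by norm_num) (show (0:ℝ) ≤ 1 / 2 by norm_num)
      (by norm_num)
    convert h2 using 1
    simp only [smul_sub, smul_neg, smul_smul]
    rw [show 1 / 2 * (2 / ε) = 1 / ε by field_simp]
    abel
  have hmem : P.card + 1 ∈ s := by
    refine ⟨insert y P, Finset.card_insert_of_notMem hyn, ?_, ?_⟩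
    · intro p hp
      rcases Finset.mem_insert.1 hp with h | h
      · rw [h]; exact hy
      · exact hPg p h
    · intro p hp q hq hpq
      rcases Finset.mem_insert.1 hp with h1 | h1 <;> rcases Finset.mem_insert.1 hq with h2 | h2
      · exact absurd (h1.trans h2.symm) hpq
      · rw [h1]; exact hdy q h2
      · rw [h2]; exact (hdy p h1).symm
      · exact hPd p h1 q h2 hpq
  have := le_csSup hba hmem
  omega

end Vale.Agent.P230
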